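import Vale.Agent.P354CQ.Glu
import Vale.Agent.P354Z.Skel
import Vale.Agent.P354YO.Fn

/-!
The straight chart (u, r, xi) of the scaffold, the regions, and the exact statements PRE, TZ, SG.
-/

open scoped ContDiff
open Set Filter Topology

noncomputable section

namespace Vale.Agent.P354CQ

open Vale.Agent.P354n (R4)
open Vale.Agent.P354XG Vale.Agent.P354XD Vale.Agent.P354XR Vale.Agent.P354XI Vale.Agent.P354Z
open Vale.Agent.P354XE (Tw Lo ur)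
open Vale.Agent.P354XO (Om Cht)
open Vale.Agent.P354YO (sh IsTh)
open Vale.Agent.P354YT (tb)

/-- The passage from the time u = t + m / r to the time t, and back. -/
def ki (m : ℝ) (x : E6) : E6 := (x.1 - m / x.2.1, x.2)
def ko (m : ℝ) (x : E6) : E6 := (x.1 + m / x.2.1, x.2)

/-- The lift of sh A B to the spinors. -/
def s6 (A B : ℝ → ℝ) (x : E6) : E6 :=
  (x.1 + A x.2.1, x.2.1, Complex.exp (-(B x.2.1 / 2 : ℝ) * Complex.I) * x.2.2.1,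
    Complex.exp ((B x.2.1 / 2 : ℝ) * Complex.I) * x.2.2.2)

/-- The map from the straight chart to the ingoing chart, and its inverse. -/
def ph (M : ℝ) (A B : ℝ → ℝ) : E6 → E6 := s6 A B ∘ ki (4 * M ^ 2)
def hp' (M : ℝ) (A B : ℝ → ℝ) : E6 → E6 := ko (4 * M ^ 2) ∘ s6 (-A) (-B)

/-- All points with r > 0. -/
def P6 : Set E6 := Om {p | 0 < p.2}

/-- The additive constant of the time: ur = u - k far out. -/
def Nrm (M a k : ℝ) (A : ℝ → ℝ) : Prop :=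
  ∀ r ≥ 6 * M, A r = 4 * M ^ 2 / r + r + 2 * tb M a r - k

/-- PRE: the explicit charts. -/
def PRE : Prop := ∀ (M a : ℝ) (A B : ℝ → ℝ), ContDiff ℝ ∞ A → ContDiff ℝ ∞ B →
  Cht P6 (s6 A B) ∧ Cht P6 (ph M A B) ∧ Cht P6 (hp' M A B) ∧ MapsTo (ph M A B) P6 P6 ∧
  MapsTo (hp' M A B) P6 P6 ∧ (∀ x, s6 (-A) (-B) (s6 A B x) = x ∧ s6 A B (s6 (-A) (-B) x) = x ∧
    hp' M A B (ph M A B x) = x ∧ ph M A B (hp' M A B x) = x) ∧
  (∀ x ∈ P6, pj (s6 A B x) = sh A B (pj x)) ∧ (|a| < M → IsTh M M a A B →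
    (∃ k, Nrm M a k A) ∧ ∀ x ∈ P6, 6 * M ≤ x.2.1 →
      fderiv ℝ (pj ∘ ph M A B) x er = Lo M a (pj (ph M A B x)) ∧
      fderiv ℝ (pj ∘ ph M A B) x (1, 0) = P354XE.eT ∧
      ∀ k, Nrm M a k A → ur M a (pj (ph M A B x)) = x.1 - k)

/-- The lid function in the straight chart. -/
structure Tz (r1 R1 Rs L c1 : ℝ) (f : ℝ → ℝ) (τ : ℝ × ℝ → ℝ) : Prop where
  sm : ∀ p : ℝ × ℝ, r1 < p.2 → ContDiffAt ℝ ∞ τ p
  near : ∀ p : ℝ × ℝ, r1 < p.2 → p.2 ≤ Rs → τ p = p.1 + f p.2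
  L0 : 0 ≤ L
  lip : ∀ r s, r1 < r → r ≤ s → s ≤ Rs → f s - f r ≤ L * (s - r)
  top : Tendsto f (𝓝[>] r1) atTop
  c0 : 0 < c1
  du : ∀ p : ℝ × ℝ, r1 < p.2 → 1 ≤ fderiv ℝ τ p (1, 0) ∧ fderiv ℝ τ p (1, 0) ≤ 1 + p.2 / 400 ∧
    c1 * (p.2 * (|p.1| + R1) ^ (-(101 / 100) : ℝ)) ≤ fderiv ℝ τ p (1, 0)
  dr : ∀ p : ℝ × ℝ, R1 + 1 ≤ p.2 → fderiv ℝ τ p (0, 1) ∈ Icc (3 / 2 : ℝ) (7 / 4)

/-- The functions f and tau of the scaffold. -/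
def fz (z : Z1) (A : ℝ → ℝ) (r : ℝ) : ℝ := A r - 4 * z.M ^ 2 / r + (z.pm 0 0).nu r
def tz (z : Z1) (A B : ℝ → ℝ) (Rs : ℝ) (p : ℝ × ℝ) : ℝ :=
  (z.pm Rs 0).tau (pj (ph z.M A B (p.1, p.2, 1, 0)))

/-- TZ: the lid function of the scaffold. -/
def TZ : Prop := ∀ (z : Z1) (A B : ℝ → ℝ), z.Ok → IsTh z.M z.M z.a A B → ∃ L, ∀ Rs ≥ z.R1 + 1,
  ∃ c1, Tz z.r1 z.R1 Rs L c1 (fz z A) (tz z A B Rs) ∧ ∀ Rb, ∀ x ∈ P6,
    (z.pm Rs Rb).tau (pj (ph z.M A B x)) = tz z A B Rs (x.1, x.2.1)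

/-- SG: the gradient of a function with spacelike levels is causal; f is the function on the base,
s its germ, and the sign is fixed by one inequality. -/
def SG : Prop := ∀ (O : Set E6) (g : Tw) (F : Fr (Sm (on O))) (s : Sm (on O)) (f : R4 → ℝ),
  Cone O → (∀ y ∈ O, VacAt g (pj y)) → F.WN (ge O g) → (∀ y ∈ O, fv s y = f (pj y)) →
  ∀ x ∈ O, DifferentiableAt ℝ f (pj x) → P354XV.Spl g f (pj x) →
    0 < rv ((F.ghp (ge O g)).th s) x + rv ((F.ghp (ge O g)).tp s) x →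
    0 ≤ rv ((F.ghp (ge O g)).th s) x ∧ 0 ≤ rv ((F.ghp (ge O g)).tp s) x ∧
      ‖fv ((F.ghp (ge O g)).et s) x‖ ^ 2 ≤
        rv ((F.ghp (ge O g)).th s) x * rv ((F.ghp (ge O g)).tp s) x

/-! ### The regions -/

/-- The bottom in the straight chart. -/
def bb (c : Cs) (r : ℝ) : ℝ := c.bt r + 4 * c.M ^ 2 / r

/-- The region below the lid, its near part and its far part above the bottom. -/
def Dv (r1 : ℝ) (τ : ℝ × ℝ → ℝ) (Lv : Set ℝ) : Set (ℝ × ℝ) := {p | r1 < p.2 ∧ τ p ∈ Lv}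
def D0 (c : Cs) (D : Set (ℝ × ℝ)) : Set (ℝ × ℝ) := {p ∈ D | bb c p.2 - 1 < p.1}
def D1 (c : Cs) (D : Set (ℝ × ℝ)) : Set (ℝ × ℝ) := {p ∈ D0 c D | p.2 < c.Rs}
def D2 (c : Cs) (D : Set (ℝ × ℝ)) : Set (ℝ × ℝ) := {p ∈ D0 c D | c.R1 + 5 / 2 < p.2}

/-- The radius of the anchor, and the map from the straight chart to the chart of the estimates. -/
def Ra (c : Cs) : ℝ := c.R1 + 9 / 4
def ac (c : Cs) (a : E6 → E6) (α : E6 → ℝ) : E6 → E6 := ki (4 * c.M ^ 2) ∘ glu (Ra c) a α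

end Vale.Agent.P354CQ
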