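import Vale.Agent.P354CQ.Exg

/-!
The factor of the affine parameter, and the exact identities along the rays.
-/

set_option maxSynthPendingDepth 3

open scoped ContDiff
open Set Filter Topology
open Function (invFunOn Injective)

noncomputable section

namespace Vale.Agent.P354CQ

open Vale.Agent.P354n (R4)
open Vale.Agent.P354R (Met)
open Vale.Agent.P354XG (E6)
open Vale.Agent.P354XD (pj cd_pj tb rp_tb)
open Vale.Agent.P354XE (Tw Lo eT gin pb)
open Vale.Agent.P354XO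
open Vale.Agent.P354Z (Cs uu)
open Vale.Agent.P354MG (er4 ray st4 al4 vt)

/-- The metric on vectors of the chart, and the outgoing field of the chart of the estimates. -/
def G6 (g : Tw) (y v w : E6) : ℝ := g (pj y) (fderiv ℝ pj y v) (fderiv ℝ pj y w)
def Rv (M : ℝ) (y : E6) : E6 := (4 * M ^ 2 / y.2.1 ^ 2, 1, 0)

/-- The identities along the rays. -/
structure Rid (M : ℝ) (O : Set E6) (g : Tw) : Prop where
  RR : ∀ y ∈ O, G6 g y (Rv M y) (Rv M y) = 0
  RT : ∀ y ∈ O, G6 g y (Rv M y) (1, 0) = -1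
  RO : ∀ y ∈ O, ∀ y' ∈ O, uu M y = uu M y' → y.2.2 = y'.2.2 → ∀ w : ℂ × ℂ,
    G6 g y (Rv M y) (0, 0, w) = G6 g y' (Rv M y') (0, 0, w)

/-- The factor of the affine parameter. -/
def alf (R us : ℝ) (h : Tw) (φ : R4 → R4) (x : E6) : ℝ :=
  if x.1 < us then 1 else al4 R h φ (pj (anc R x))

variable {D : Set (ℝ × ℝ)} {M a0 R Rs L e us δ : ℝ} {w A B : ℝ → ℝ} {a : E6 → E6} {α : E6 → ℝ}
  {x y : E6} {g h : Tw} {φ : R4 → R4} {O O' : Set E6}

theorem Rid.mono (k : Rid M O g) (s : O' ⊆ O) : Rid M O' g :=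
  ⟨fun y m => k.RR y (s m), fun y m => k.RT y (s m), fun y m y' m' => k.RO y (s m) y' (s m')⟩

theorem Rid.dO (k : Rid M O g) (o : IsOpen O) (hy : y ∈ O) (r : y.2.1 ≠ 0) (w : ℂ × ℂ) :
    fderiv ℝ (fun y => G6 g y (Rv M y) (0, 0, w)) y (Rv M y) = 0 := by
  by_cases d : DifferentiableAt ℝ (fun y => G6 g y (Rv M y) (0, 0, w)) y
  · have e : ki (4 * M ^ 2) (anc y.2.1 (ko (4 * M ^ 2) y)) = y := ki_ko _ y
    have d1 := (ki_d (m := 4 * M ^ 2) (x := anc y.2.1 (ko (4 * M ^ 2) y)) r).comp_hasDerivAt y.2.1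
      (anc_dr _ _)
    have d2 := d.hasFDerivAt.comp_hasDerivAt_of_eq y.2.1 d1 e.symm
    have := d2.unique ((hasDerivAt_const y.2.1 (G6 g y (Rv M y) (0, 0, w))).congr_of_eventuallyEq
      ((d1.continuousAt.eventually_mem (o.mem_nhds (by rwa [Function.comp, e]))).mono fun s m =>
        k.RO _ m y hy (by simp [uu, ki, ko, anc]) rfl w))
    refine Eq.trans (congrArg _ ?_) this
    ext <;> simp [Rv, er, dR_ap, anc, ko]
  · rw [fderiv_zero_of_not_differentiableAt d, zero_apply]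

theorem al4_anc (r : 0 < R) (hx : x ∈ P6) : al4 R h φ (pj (anc R x)) = al4 R h φ (pj x) := by
  rw [al4, al4, ray_pj hx, ray_pj (anc_p6 hx.2 r)]; rfl

theorem surj_of {E : Type} [NormedAddCommGroup E] [NormedSpace ℝ E] [FiniteDimensional ℝ E]
    {T : E →L[ℝ] E} (i : Injective T) : Function.Surjective T :=
  (LinearMap.injective_iff_surjective (f := (T : E →ₗ[ℝ] E))).1 i

theorem inverse_eq {T : R4 →L[ℝ] R4} (i : Injective T) (v : R4) : T.inverse (T v) = v :=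
  (ContinuousLinearMap.IsInvertible.inverse_apply_eq ⟨ContinuousLinearEquiv.ofBijective T
    (LinearMap.ker_eq_bot.2 i) (LinearMap.range_eq_top.2 (surj_of i)), rfl⟩).2 rfl

theorem al4_eq (t : Th M a0 A B) (r : 6 * M < R) (hx : x.2.2 ≠ 0) {v : E6}
    (m : ∃ W, IsOpen W ∧ Met g W ∧ ps M A B (anc R x) ∈ W)
    (e : vt φ (pj (anc R x)) = fderiv ℝ pj (anc R x) v) :
    al4 R (pb (st4 M A B) g) φ (pj (anc R x)) = -om M a0 A B g (anc R x) v := by
  obtain ⟨W, o, m, k⟩ := m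
  have p := anc_p6 hx (show 0 < R by linarith [abs_nonneg a0, t.sub])
  rw [al4, ray_pj p, show anc R (anc R x) = anc R x from rfl, e, ← pj_er p, pb, ← t.ps_fd p,
    ← t.ps_fd p, ← ps_st p, t.ps_er p r.le, (rp_tb o m).eq _ k]
  rfl

theorem om_congr (hx : x ∈ P6) (m : ∃ W, IsOpen W ∧ Met g W ∧ ps M A B x ∈ W)
    (e : ∀ v, g (ps M A B x) (Lo M a0 (ps M A B x)) v =
      gin M a0 (ps M A B x) (Lo M a0 (ps M A B x)) v) (v : E6) :
    om M a0 A B g x v = om M a0 A B (gin M a0) x v := by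
  obtain ⟨W, o, m, k⟩ := m
  rw [om, om, ContinuousLinearMap.comp_apply, ContinuousLinearMap.comp_apply, ← (rp_tb o m).eq _ k,
    e, (rp_tb P354YR.open_ne (P354YR.gin_met fun _ k => k)).eq _
      (P354YR.xs_ne (by rw [rd_ps hx]; exact hx.1))]

/-- The factor is 1 where the chart is the identity and the form of Lo is that of Kerr. -/
theorem al4_one (t : Th M a0 A B) (r : 6 * M < R) (hx : x.2.2 ≠ 0)
    (m : ∃ W, IsOpen W ∧ Met g W ∧ ps M A B (anc R x) ∈ W)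
    (e : ∀ v, g (ps M A B (anc R x)) (Lo M a0 (ps M A B (anc R x))) v =
      gin M a0 (ps M A B (anc R x)) (Lo M a0 (ps M A B (anc R x))) v)
    (i : φ =ᶠ[𝓝 (pj (anc R x))] id) : al4 R (pb (st4 M A B) g) φ (pj (anc R x)) = 1 := by
  have p := anc_p6 hx (show 0 < R by linarith [abs_nonneg a0, t.sub])
  rw [al4_eq t r hx m (v := (1, 0)), om_congr p m e, t.om_gT p r, neg_neg]
  rw [vt, i.fderiv_eq, fderiv_id, ContinuousLinearMap.inverse_id, pj_eT p.2]
  simp [P354XE.dr, P354YR.dT_c, eT]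

theorem ex_cp (R : ℝ) : ∃ C ≥ (1 : ℝ), ∀ x : E6, ‖x.2.2‖ = 1 → ‖fderiv ℝ pj (anc R x)‖ ≤ C := by
  obtain ⟨C, hC⟩ := (isCompact_sphere (0 : ℂ × ℂ) 1).exists_bound_of_continuousOn
    (f := fun ξ => fderiv ℝ pj (0, R, ξ)) fun ξ m => ((((cd_pj (x := (0, R, ξ)) (by
      rintro rfl; simp at m)).fderiv_right (m := 0) (by norm_cast)).continuousAt.comp
        (f := fun ξ : ℂ × ℂ => ((0, R, ξ) : E6)) (by fun_prop)).continuousWithinAt)
  refine ⟨max 1 C, le_max_left _ _, fun x n => le_trans (le_of_eq (congrArg _ ?_))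
    ((hC _ (mem_sphere_zero_iff_norm.2 n)).trans (le_max_right _ _))⟩
  rw [show anc R x = (0, R, x.2.2) + (x.1, 0) by simp [anc], ← fderiv_comp_add_right,
    show (fun y => pj (y + (x.1, 0))) = fun y => pj y + (x.1, 0) from funext fun y => by
      simp [pj, P354XD.nq], fderiv_add_const]

/-- A bound of the differential of the projection on the cylinder. -/
def cp (R : ℝ) : ℝ := (ex_cp R).choose
theorem cp_ge (R : ℝ) : 1 ≤ cp R := (ex_cp R).choose_spec.1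

theorem alf_ev (o : IsOpen (Wd D R)) (δ0 : 0 < δ) (ov : ∀ x ∈ Om (Wd D R), us - δ < x.1 → x.1 < us →
    al4 R h φ (pj (anc R x)) = 1) (hx : x ∈ Om (Wd D R)) (u : us ≤ x.1) :
    alf R us h φ =ᶠ[𝓝 x] fun y => al4 R h φ (pj (anc R y)) := by
  filter_upwards [(om_open o).mem_nhds hx, continuousAt_fst.eventually_const_lt
    (show us - δ < x.1 by linarith)] with y h1 h2
  rw [alf]
  split_ifs with k
  exacts [(ov y h1 h2 k).symm, rfl]

theorem alf_ev' (u : x.1 < us) : alf R us h φ =ᶠ[𝓝 x] fun _ => 1 :=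
  (continuousAt_fst.eventually_lt_const u).mono fun _ k => if_pos k

/-- The input of the chart along the rays. -/
theorem lb_of (b : Box (cut D (R + 1 / 2)) a 1 e e) (o : IsOpen (Wd D R)) (δ0 : 0 < δ)
    (ov : ∀ x ∈ Om (Wd D R), us - δ < x.1 → x.1 < us → al4 R h φ (pj (anc R x)) = 1)
    (s : ∀ x ∈ Om (Wd D R), us ≤ x.1 → ContDiffAt ℝ ∞ (al4 R h φ) (pj (anc R x)) ∧
      |al4 R h φ (pj (anc R x)) - 1| ≤ e ∧
        cp R * ‖fderiv ℝ (al4 R h φ) (pj (anc R x))‖ ≤ e * w x.1)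
    (w0 : ∀ u, 0 ≤ w u) (w1 : ∀ u, w u ≤ 1) : Lb D R e w a (alf R us h φ) := by
  refine ⟨b, fun _ => rfl, fun x hx => ?_, fun x _ z hz => ?_, fun x hx => ?_, fun x hx n => ?_, w1⟩
  · rcases lt_or_ge x.1 us with u | u
    · exact contDiffAt_const.congr_of_eventuallyEq (alf_ev' u)
    · exact ((s x hx u).1.comp x (f := fun y => pj (anc R y)) ((cd_pj (x := anc R x) hx.2).comp x
        (anc_sm R).contDiffAt)).congr_of_eventuallyEq (alf_ev o δ0 ov hx u)
  · rw [alf, alf, show anc R (sc z x) = sc z (anc R x) from rfl, pj_sc hz]; rfl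
  · rw [alf]
    split_ifs with u
    exacts [by simpa using b.e0, (s x hx (not_lt.1 u)).2.1]
  · rcases lt_or_ge x.1 us with u | u
    · rw [(alf_ev' u).fderiv_eq, fderiv_fun_const]
      simpa using mul_nonneg b.e0 (w0 _)
    · obtain ⟨s1, -, s2⟩ := s x hx u
      rw [(((s1.differentiableAt (by simp)).hasFDerivAt.comp x ((pj_d (x := anc R x) hx.2).comp x
        (anc_d R x))).congr_of_eventuallyEq (alf_ev o δ0 ov hx u)).fderiv]
      refine (ContinuousLinearMap.opNorm_comp_le _ _).trans (le_trans ?_ s2)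
      rw [mul_comm]
      refine mul_le_mul_of_nonneg_right ((ContinuousLinearMap.opNorm_comp_le _ _).trans ?_)
        (norm_nonneg _)
      exact (mul_le_of_le_one_right (norm_nonneg _) (hz.opNorm_le_bound zero_le_one fun v => by
        rw [one_mul]; exact norm_hz v)).trans ((ex_cp R).choose_spec.2 x n)

/-- The factor as a function on the base. -/
theorem dnf_alf (hx : x ∈ P6) {f : R4 → ℝ}
    (e : ∀ᶠ y in 𝓝 x, ∀ z ≠ 0, α (sc z y) = f (pj y)) : dnf α =ᶠ[𝓝 (pj x)] f := by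
  obtain ⟨s, h1, ⟨z, hz, h2⟩, h3⟩ := ex_sec hx.1 hx.2
  have c : ContinuousAt (fun q => sc z⁻¹ (s q)) (pj x) :=
    (sc z⁻¹).continuous.continuousAt.comp h1.continuousAt
  have e2 : sc z⁻¹ (s (pj x)) = x := by rw [h2, inv_sc hz]
  filter_upwards [h3, c.eventually (e2.symm ▸ e), c.eventually_mem (p6_open.mem_nhds
    (e2.symm ▸ hx))] with q k1 k2 k3
  obtain ⟨w, hw, k4⟩ := lift_pj k3.1 k3.2
  rw [pj_sc (inv_ne_zero hz), k1] at k4 k2
  rw [dnf, k4, k2 w hw]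

/-- The vector vt is the image of the horizontal vector. -/
theorem Lb.vt_eq (h : Lb D R e w a α) (k : Dk D R Rs L) (n : Cht (Om (cut D (R + 1 / 2))) a)
    (lf : ∀ x ∈ Om (cut D (R + 1 / 2)), pj (a x) = φ (pj x)) (hx : x ∈ Om (Wd D R)) {v : E6}
    {β : ℝ} (r : v.2.1 = 0) (hv : fderiv ℝ a (anc R x) v + β • er = (1, 0)) :
    vt φ (pj (anc R x)) = fderiv ℝ pj (anc R x) v := by
  have m := anc_mem hx
  have p : anc R x ∈ P6 := n.eqv.pos _ m
  have p' : a (anc R x) ∈ P6 := ⟨n.pos _ m, n.eqv.ne _ m⟩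
  have e1 : φ =ᶠ[𝓝 (pj (anc R x))] dn4 a :=
    mem_of_superset (n.eqv.shadow.mem_nhds ⟨_, m, rfl⟩) fun _ ⟨y, hy, j⟩ =>
      j ▸ (lf y hy).symm.trans (n.eqv.pj_dn hy).symm
  have i : Injective (fderiv ℝ φ (pj (anc R x))) := e1.fderiv_eq (𝕜 := ℝ) ▸ n.dif4.fd _ ⟨_, m, rfl⟩
  have c : ∀ v, fderiv ℝ pj (a (anc R x)) (fderiv ℝ a (anc R x) v) =
      fderiv ℝ φ (pj (anc R x)) (fderiv ℝ pj (anc R x) v) := fun v =>
    DFunLike.congr_fun (((pj_d p'.2).comp _ (n.dif.diff m)).unique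
      ((((((n.dif4.sm _ ⟨_, m, rfl⟩).congr_of_eventuallyEq e1).differentiableAt
        (by simp)).hasFDerivAt).comp _ (pj_d p.2)).congr_of_eventuallyEq
          ((n.dif.op.eventually_mem m).mono lf))) v
  obtain ⟨u, hu⟩ := surj_of (n.dif.fd _ m) er
  have u0 : u.2.1 ≠ 0 := fun j => by
    have e2 : hz u = u := by rw [← hz_add u, j]; simp [hz_ap]
    have e3 : u = 0 := (h.lab_dif k).fd x hx (by
      rw [(h.lab_d hx).fderiv, map_zero]; simp [e2, hu, dR_ap, j, show hz er = 0 from rfl])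
    simpa [e3, er] using congrArg (·.2.1) hu
  have e4 := c u
  have e5 := c (v + β • u)
  rw [hu, pj_er p', lf _ m] at e4
  rw [map_add, map_smul, hu, hv, pj_eT p'.2] at e5
  rw [vt, e4, e5, inverse_eq i, inverse_eq i, dr_pj p, dr_pj p, map_add, map_smul]
  simp [r, u0]

/-- The input of the identities. -/
structure Xi (c : Cs) (n : Kn) (Lv : Set ℝ) (a : E6 → E6) (α : E6 → ℝ) (A B : ℝ → ℝ) (g : Tw)
    (φ : R4 → R4) (us : ℝ) : Prop where
  su : Su c n Lv a α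
  al : α = alf (Ra c) us (pb (st4 c.M A B) g) φ
  th : Th c.M c.a A B
  lf : ∀ x ∈ Om (cut (Dv n.r1 n.τ Lv) (Ra c + 1 / 2)), pj (a x) = φ (pj x)
  ut : us ≤ n.ti
  late : ∀ x ∈ Om (Dv n.r1 n.τ Lv), us ≤ x.1 → Ra c ≤ x.2.1 → Ng c.M c.a g (ps c.M A B x)
  early : ∀ x ∈ Om (D2 c (Dv n.r1 n.τ Lv)), x.1 < us →
    (∃ W, IsOpen W ∧ Met g W ∧ ps c.M A B x ∈ W) ∧ ∀ v, g (ps c.M A B x)
      (Lo c.M c.a (ps c.M A B x)) v = gin c.M c.a (ps c.M A B x) (Lo c.M c.a (ps c.M A B x)) v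

variable {c : Cs} {n : Kn} {Lv : Set ℝ}

theorem Su.near (h : Su c n Lv a α) : Cht (Om (cut (Dv n.r1 n.τ Lv) (Ra c + 1 / 2))) a := by
  obtain ⟨a1, a2, a3, a4⟩ := h.nm.rad
  have k := (h.nm.k0 h.e0).1
  exact h.lb.box.cht (h.dk.walk (by linarith)) (by linarith [h.dk.L0]) (by
    nlinarith [(h.nm.k1 h.e0).2.1, h.dk.L0]) fun q hq => by linarith [hq.1.1, h.nm.r1, h.num.1]

namespace Xi
variable (X : Xi c n Lv a α A B g φ us) (hx : x ∈ Om (D2 c (Dv n.r1 n.τ Lv)))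
include X

theorem six : 6 * c.M < Ra c := by
  rw [Ra]; linarith [X.su.nm.ok.R1, (ok_num X.su.nm.ok).2.1]

include hx

omit X in
theorem ra : Ra c + 1 / 4 < x.2.1 := by rw [Ra]; linarith [show c.R1 + 5 / 2 < x.2.1 from hx.1.2]
theorem wd : x ∈ Om (Wd (Dv n.r1 n.τ Lv) (Ra c)) := X.su.dk.mem (of2 hx) (by linarith [ra hx])
theorem p6 : x ∈ P6 := X.su.cht.eqv.pos x (of2 hx)

theorem met : ∃ W, IsOpen W ∧ Met g W ∧ ps c.M A B x ∈ W := (lt_or_ge x.1 us).elim
  (fun u => (X.early x hx u).1) fun u => (X.late x (of2 hx) u (by linarith [ra hx])).met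

theorem key1 (v : E6) : om c.M c.a A B g x v =
    om c.M c.a A B (if x.1 < us then gin c.M c.a else g) (anc (Ra c) x) (hz v) := by
  have r : Ra c ≤ x.2.1 := by linarith [ra hx]
  split_ifs with u
  · rw [om_congr (X.p6 hx) (X.met hx) (X.early x hx u).2, X.th.om_gin hx.2 X.six r]
  · exact X.th.om_ray hx.2 X.six r (fun s m => X.late _ ⟨X.su.dk.ray _ (of2 hx).1 s m, hx.2⟩
      (not_lt.1 u) m.1) v

theorem key2 {v : E6} {β : ℝ} (r : v.2.1 = 0)
    (hv : fderiv ℝ a (anc (Ra c) x) v + β • er = (1, 0)) :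
    om c.M c.a A B (if x.1 < us then gin c.M c.a else g) (anc (Ra c) x) v =
      -α x := by
  rw [X.al, alf]
  split_ifs with u
  · have i : a =ᶠ[𝓝 (anc (Ra c) x)] id := (continuousAt_fst.eventually_lt_const
      (show (anc (Ra c) x).1 < n.ti from u.trans_le X.ut)).mono fun y k => X.su.id y k.le
    rw [i.fderiv_eq, fderiv_id, ContinuousLinearMap.id_apply] at hv
    have b : β = 0 := by simpa [er, r] using congrArg (·.2.1) hv
    rw [b, zero_smul, add_zero] at hv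
    rw [hv]
    exact X.th.om_gT (X.su.near.eqv.pos _ (anc_mem (X.wd hx))) X.six
  · rw [al4_eq X.th X.six hx.2 (X.late _ (of_cut (anc_mem (X.wd hx))) (not_lt.1 u) le_rfl).met
      (X.su.lb.vt_eq X.su.dk X.su.near X.lf (X.wd hx) r hv), neg_neg]

variable {b : R4 → R4}
  (hb : ∀ x ∈ Om (D2 c (Dv n.r1 n.τ Lv)), DifferentiableAt ℝ b (pj (ac c a α x)) ∧
    b (pj (ac c a α x)) = ps c.M A B x)
include hb

theorem pull {v p : E6}
    (hv : fderiv ℝ (far (Ra c) a α) x v = p) :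
    G6 (pb b g) (ac c a α x) (Rv c.M (ac c a α x))
      (p.1 + 4 * c.M ^ 2 / (ac c a α x).2.1 ^ 2 * p.2.1, p.2) =
      (α x)⁻¹ * om c.M c.a A B g x v := by
  have d1 := X.su.ac_d (of2 hx) hx.1.2
  have k := fun v => DFunLike.congr_fun (((hb x hx).1.hasFDerivAt.comp x
    ((pj_d (X.su.cht.eqv.ne x (of2 hx))).comp x d1)).unique
    ((((X.th.ps_cd (X.p6 hx)).differentiableAt (by simp)).hasFDerivAt).congr_of_eventuallyEq
      (((om_open X.su.op2).eventually_mem hx).mono fun y j => (hb y j).2))) v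
  have p0 := X.su.lb.pos (X.wd hx)
  have k1 := k v
  have k2 := k ((α x)⁻¹ • er)
  simp only [ContinuousLinearMap.comp_apply, hv] at k1 k2
  rw [map_smul (fderiv ℝ (far _ _ _) x), X.su.lb.far_er (X.wd hx), inv_smul_smul₀ (by linarith),
    map_smul (fderiv ℝ (ps _ _ _) x), X.th.ps_er (X.p6 hx) (by linarith [X.six, ra hx])] at k2
  obtain ⟨W, o, m, j⟩ := X.met hx
  rw [om, ContinuousLinearMap.comp_apply, ← smul_eq_mul (α x)⁻¹, ← smul_apply,
    ← map_smul, ← (rp_tb o m).eq _ j, ← k1, ← k2, ← (hb x hx).2, G6, pb]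
  refine congrArg₂ _ (congrArg _ (congrArg _ ?_)) (congrArg _ (congrArg _ ?_)) <;> ext <;>
    simp [Rv, er, dR_ap]

omit hx in
/-- **The identities along the rays.** -/
theorem rid : Rid c.M (ac c a α '' Om (D2 c (Dv n.r1 n.τ Lv))) (pb b g) := by
  have S := X.su
  have s : ∀ x ∈ Om (D2 c (Dv n.r1 n.τ Lv)), ∀ p : E6, p.2.1 = 0 → ∃ (v : E6) (β : ℝ),
      v.2.1 = 0 ∧ fderiv ℝ a (anc (Ra c) x) v + β • er = p ∧
      G6 (pb b g) (ac c a α x) (Rv c.M (ac c a α x)) p = (α x)⁻¹ *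
        om c.M c.a A B (if x.1 < us then gin c.M c.a else g) (anc (Ra c) x) v := fun x hx p r => by
    obtain ⟨v, hv⟩ := surj_of ((S.lb.far_dif S.dk).fd x (X.wd hx)) p
    have k := X.pull hx hb hv
    rw [r, mul_zero, add_zero, X.key1 hx] at k
    rw [(S.lb.far_d (X.wd hx)).fderiv] at hv
    exact ⟨hz v, _, rfl, hv, k⟩
  refine ⟨?_, ?_, ?_⟩
  · rintro _ ⟨x, hx, rfl⟩
    have p0 := S.lb.pos (X.wd hx)
    have k := X.pull hx hb (v := (α x)⁻¹ • er) (p := er) (by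
      rw [map_smul, S.lb.far_er (X.wd hx), inv_smul_smul₀ (by linarith)])
    rw [X.key1 hx, map_smul, show hz er = 0 from rfl, smul_zero, map_zero, mul_zero] at k
    simpa [er, Rv] using k
  · rintro _ ⟨x, hx, rfl⟩
    obtain ⟨v, β, r, hv, k⟩ := s x hx (1, 0) rfl
    rw [k, X.key2 hx r hv, mul_neg, inv_mul_cancel₀ (by linarith [S.lb.pos (X.wd hx)])]
  · rintro _ ⟨x, hx, rfl⟩ _ ⟨y, hy, rfl⟩ e1 e2 w
    obtain ⟨v, β, r, hv, k⟩ := s x hx (0, 0, w) rfl
    obtain ⟨v', β', r', hv', k'⟩ := s y hy (0, 0, w) rfl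
    rw [ac_uu, ac_uu, glu_far (ra hx).le, glu_far (ra hy).le] at e1
    rw [ac_r, ac_r, glu_far (ra hx).le, glu_far (ra hy).le] at e2
    have e3 : anc (Ra c) x = anc (Ra c) y := (S.lb.lab_dif S.dk).inj (x₁ := anc (Ra c) x)
      (X.wd (x := x) hx) (x₂ := anc (Ra c) y) (X.wd (x := y) hy) (by
      simp only [far, er, Prod.fst_add, Prod.snd_add, Prod.smul_mk, smul_zero, add_zero] at e1 e2
      simp only [lab, hz_ap, show ∀ x, anc (Ra c) (anc (Ra c) x) = anc (Ra c) x from fun _ => rfl,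
        e1, e2]
      rfl)
    have e4 : ∀ v : E6, v.2.1 = 0 → ∀ β : ℝ, fderiv ℝ a (anc (Ra c) x) v + β • er = (0, 0, w) →
        fderiv ℝ (lab (Ra c) a) x v = (0, 0, w) := fun v r β j => by
      have e5 : hz v = v := by rw [← hz_add v, r]; simp [hz_ap]
      have := congrArg hz j
      rw [(S.lb.lab_d (X.wd hx)).fderiv]
      simpa [e5, dR_ap, r, show hz er = 0 from rfl, hz_ap (0, 0, w)] using this
    have e6 : v = v' := (S.lb.lab_dif S.dk).fd x (X.wd hx)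
      ((e4 v r β hv).trans (e4 v' r' β' (e3 ▸ hv')).symm)
    rw [k, k', ← S.lb.ind x, ← S.lb.ind y, e3, e6, show x.1 = y.1 from congrArg (·.1) e3]

end Xi

end Vale.Agent.P354CQ
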