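import Vale.Agent.P354CQ.Shs
import Vale.Agent.P354MG.Parts
import Vale.Agent.P354CS.Pre
import Vale.Agent.P354YN.KerC
import Vale.Agent.P354YO.Sh

/-!
The form of the outgoing field is constant along the rays of the straight chart.
-/

set_option maxSynthPendingDepth 3

open scoped ContDiff
open Set Filter Topology

noncomputable section

namespace Vale.Agent.P354CQ

open Vale.Agent.P354n (R4)
open Vale.Agent.P354R (Met Del)
open Vale.Agent.P354RC (Gm Rp)
open Vale.Agent.P354XG (E6)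
open Vale.Agent.P354XD (pj cd_pj tb rp_tb)
open Vale.Agent.P354XR (rd_pj)
open Vale.Agent.P354XE (Tw Lo rd dr eT gin xs)
open Vale.Agent.P354XO (Cht om_open)
open Vale.Agent.P354XV (Fst)
open Vale.Agent.P354YO (IsTh)
open Vale.Agent.P354MG (er4 ray st4)

variable {x : E6} {M a s R : ℝ} {A B : ℝ → ℝ} {g : Tw} {p : R4}

theorem p6_open : IsOpen P6 := om_open (isOpen_lt continuous_const continuous_snd)
theorem anc_p6 (h : x.2.2 ≠ 0) (k : 0 < s) : anc s x ∈ P6 := ⟨k, h⟩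
theorem anc_dr (x : E6) (s : ℝ) : HasDerivAt (fun s => anc s x) er s :=
  (hasDerivAt_const s x.1).prodMk ((hasDerivAt_id s).prodMk (hasDerivAt_const s x.2.2))
theorem pj_d (h : x.2.2 ≠ 0) : HasFDerivAt pj (fderiv ℝ pj x) x :=
  ((cd_pj h).differentiableAt (by simp)).hasFDerivAt
theorem pj_anc (s : ℝ) (x : E6) : pj (anc s x) = (x.1, s • (pj (anc 1 x)).2) := by
  simp [pj, anc, P354XD.nq]

theorem ray_pj (h : x ∈ P6) (s : ℝ) : ray s (pj x) = pj (anc s x) := by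
  rw [ray, rd_pj h.1 h.2, pj_anc s, show pj x = _ from pj_anc x.2.1 x, smul_smul,
    div_mul_cancel₀ _ (ne_of_gt h.1)]

theorem pj_er (h : x ∈ P6) : fderiv ℝ pj x er = er4 (pj x) := by
  have d1 := (pj_d (x := anc x.2.1 x) h.2).comp_hasDerivAt x.2.1 (anc_dr x x.2.1)
  have d2 : HasDerivAt (fun s => pj (anc s x)) (0, (1 : ℝ) • (pj (anc 1 x)).2) x.2.1 := by
    rw [funext fun s => pj_anc s x]
    exact (hasDerivAt_const _ _).prodMk ((hasDerivAt_id _).smul_const _)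
  rw [er4, rd_pj h.1 h.2, show pj x = _ from pj_anc x.2.1 x, smul_smul,
    inv_mul_cancel₀ (ne_of_gt h.1)]
  exact d1.unique d2

theorem pj_eT (h : x.2.2 ≠ 0) : fderiv ℝ pj x (1, 0) = eT := by
  have d1 := (pj_d (x := (x.1, x.2)) h).comp_hasDerivAt x.1
    ((hasDerivAt_id x.1).prodMk (hasDerivAt_const _ x.2))
  have d2 : HasDerivAt (pj ∘ fun s => (id s, x.2)) eT x.1 :=
    (hasDerivAt_id x.1).prodMk (hasDerivAt_const _ (pj x).2)
  exact d1.unique d2

theorem dr_pj (h : x ∈ P6) (v : E6) : dr (pj x) (fderiv ℝ pj x v) = v.2.1 := by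
  have n : rd (pj x) ≠ 0 := (rd_pj h.1 h.2).trans_ne (ne_of_gt h.1)
  rw [← P354XA.rd_fd n]
  exact DFunLike.congr_fun (((((P354XA.rd_cd (n := 1) n).differentiableAt
    one_ne_zero).hasFDerivAt.comp x (pj_d h.2))).unique (dR.hasFDerivAt.congr_of_eventuallyEq
      ((p6_open.eventually_mem h).mono fun _ k => rd_pj k.1 k.2))) v

/-- The field Lo is null near p and geodesic at p. -/
structure Ng (M a : ℝ) (g : Tw) (p : R4) : Prop where
  met : ∃ W, IsOpen W ∧ Met g W ∧ p ∈ W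
  nul : ∀ᶠ q in 𝓝 p, g q (Lo M a q) (Lo M a q) = 0
  geo : fderiv ℝ (Lo M a) p (Lo M a p) + Gm (tb g) p (Lo M a p) (Lo M a p) = 0

theorem ng_fst {c : P354YT.Pm} {κ : ℝ} (o : c.Ok) (h : ∀ᶠ q in 𝓝 p, Fst c κ g q)
    (r : c.R1 + 7 / 4 ≤ rd p) : Ng c.M c.a g p := by
  have e : ∀ᶠ q in 𝓝 p, 1 / 2 ≤ P354YA.dd c q :=
    (P354XV.dd_cont.continuousAt.eventually_const_lt (show 1 / 2 < P354YA.dd c p by
      unfold P354YA.dd; linarith)).mono fun _ => le_of_lt
  have e1 : c.X =ᶠ[𝓝 p] Lo c.M c.a := e.mono fun _ => P354XV.X_out o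
  obtain ⟨W, l, m⟩ := h.self_of_nhds.lv
  refine ⟨⟨W, l.isOpen, l.met, m⟩, ?_, ?_⟩
  · filter_upwards [h, e, e1] with q h1 h2 h3 using h3 ▸ h1.nul (h2.trans (le_abs_self _))
  · rw [← e1.fderiv_eq, ← e1.eq_of_nhds]
    exact h.self_of_nhds.geo (le_trans (by unfold P354YA.dd; linarith) (le_abs_self _))

theorem del_ne (h : |a| < M) (r : 6 * M ≤ s) : 0 < s ∧ Del M a s ≠ 0 :=
  ⟨by linarith [abs_nonneg a], (P354YT.Del_pos h (P354CS.rp6 h r)).ne'⟩

theorem ng_gin (h : |a| < M) (r : 6 * M < rd p) : Ng M a (gin M a) p := by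
  obtain ⟨r0, d⟩ := del_ne h r.le
  refine ⟨⟨_, P354YR.open_ne, P354YR.gin_met fun _ k => k, P354YR.xs_ne r0⟩, ?_,
    P354YN.Ke.geo_Lo r0 d⟩
  filter_upwards [P354YR.rd_cont.continuousAt.eventually_const_lt r] with q k
  obtain ⟨r1, d1⟩ := del_ne h k.le
  have l := (P354YR.LN_val (M := M) (a := a) (P354YR.xs_ne r1) d1).2.1
  rw [P354YR.gin_LN (P354YR.xs_ne r1) d1] at l
  rw [P354YR.gin_Lo (P354YR.xs_ne r1) d1]
  rw [P354XA.dr_Lo r1.ne'] at l ⊢
  simp only [mul_div_assoc] at l ⊢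
  linarith

theorem gin_LT (h : |a| < M) (r : 6 * M ≤ rd p) : gin M a p (Lo M a p) eT = -1 := by
  obtain ⟨r0, d⟩ := del_ne h r
  rw [P354YR.gin_Lo (P354YR.xs_ne r0) d]
  have e : dr p eT = 0 := by simp [dr, P354YR.dT_c, eT]
  rw [P354XE.kf, e]
  simp [P354XE.dq, P354I.dP, eT, xs]

/-- The map from the straight chart to the base, and the form of the outgoing field. -/
def ps (M : ℝ) (A B : ℝ → ℝ) : E6 → R4 := pj ∘ ph M A B
def om (M a : ℝ) (A B : ℝ → ℝ) (g : Tw) (x : E6) : E6 →L[ℝ] ℝ :=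
  (tb g (ps M A B x) (Lo M a (ps M A B x))).comp (fderiv ℝ (ps M A B) x)

theorem ps_st (h : x ∈ P6) : ps M A B x = st4 M A B (pj x) := by
  rw [ps, Function.comp, P354CS.ph_eq, P354CS.pj_s6 h]; rfl

theorem rd_ps (h : x ∈ P6) : rd (ps M A B x) = x.2.1 := by
  rw [ps_st h, st4, P354YO.rd_sh, rd_pj h.1 h.2]

/-- The chart of the initial parameters. -/
structure Th (M a : ℝ) (A B : ℝ → ℝ) : Prop where
  sub : |a| < M
  th : IsTh M M a A B
  A : ContDiff ℝ ∞ A
  B : ContDiff ℝ ∞ B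

namespace Th
variable (t : Th M a A B)
include t

theorem st_cd (h : x ∈ P6) : ContDiffAt ℝ ∞ (st4 M A B) (pj x) := by
  have e := rd_pj h.1 h.2
  have n : rd (pj x) ≠ 0 := e.trans_ne (ne_of_gt h.1)
  exact P354YO.sh_cd n (t.A.contDiffAt.sub (contDiffAt_const.div contDiffAt_id n)) t.B.contDiffAt

theorem ps_cd (h : x ∈ P6) : ContDiffAt ℝ ∞ (ps M A B) x :=
  ((t.st_cd h).comp x (cd_pj h.2)).congr_of_eventuallyEq
    ((p6_open.eventually_mem h).mono fun _ => ps_st)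

theorem ps_fd (h : x ∈ P6) (v : E6) :
    fderiv ℝ (ps M A B) x v = fderiv ℝ (st4 M A B) (pj x) (fderiv ℝ pj x v) :=
  DFunLike.congr_fun ((((t.st_cd h).differentiableAt (by simp)).hasFDerivAt.comp x
    (pj_d h.2)).congr_of_eventuallyEq ((p6_open.eventually_mem h).mono fun _ => ps_st)).fderiv v

theorem ps_er (h : x ∈ P6) (r : 6 * M ≤ x.2.1) : fderiv ℝ (ps M A B) x er = Lo M a (ps M A B x) :=
  (((P354CS.pre M a A B t.A t.B).2.2.2.2.2.2.2 t.sub t.th).2 x h r).1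
theorem ps_eT (h : x ∈ P6) (r : 6 * M ≤ x.2.1) : fderiv ℝ (ps M A B) x (1, 0) = eT :=
  (((P354CS.pre M a A B t.A t.B).2.2.2.2.2.2.2 t.sub t.th).2 x h r).2.1

theorem om_er (h : x ∈ P6) (r : 6 * M ≤ x.2.1) (n : Ng M a g (ps M A B x)) :
    om M a A B g x er = 0 := by
  obtain ⟨W, o, m, k⟩ := n.met
  rw [om, ContinuousLinearMap.comp_apply, t.ps_er h r, ← (rp_tb o m).eq _ k, n.nul.self_of_nhds]

theorem om_cd (h : x ∈ P6) (r : 6 * M < x.2.1) (n : Ng M a g (ps M A B x)) (v : E6) :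
    HasDerivAt (fun s => om M a A B g (anc s x) v) 0 x.2.1 := by
  obtain ⟨W, o, m, k⟩ := n.met
  have rp := rp_tb o m
  obtain ⟨r0, d⟩ := del_ne t.sub (s := rd (ps M A B x)) (by rw [rd_ps h]; exact r.le)
  have cL := P354YN.Ke.Lo_cd r0 d
  have dL := (cL.differentiableAt (by simp)).hasFDerivAt
  have c1 := t.ps_cd h
  have d1 := (c1.differentiableAt (by simp)).hasFDerivAt
  have d2 := ((c1.fderiv_right (m := 1) (by norm_cast)).differentiableAt one_ne_zero).hasFDerivAt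
  have l := P354XV.lie0 rp k cL n.geo (by
    have : (fun q => tb g q (Lo M a q) (Lo M a q)) =ᶠ[𝓝 (ps M A B x)] fun _ => 0 := by
      filter_upwards [n.nul, o.mem_nhds k] with q h1 h2 using rp.eq q h2 _ _ ▸ h1
    rw [this.fderiv_eq, fderiv_fun_const, Pi.zero_apply])
  have d0 := d1.comp_hasDerivAt_of_eq x.2.1 (anc_dr x x.2.1) rfl
  have d3 := (((rp.at k).clm_apply cL).differentiableAt
    (by simp)).hasFDerivAt.comp_hasDerivAt_of_eq x.2.1 d0 rfl
  have d4 := (d2.comp_hasDerivAt_of_eq x.2.1 (anc_dr x x.2.1) rfl).clm_apply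
    (hasDerivAt_const _ v)
  have e : fderiv ℝ (fderiv ℝ (ps M A B)) x v er =
      fderiv ℝ (Lo M a) (ps M A B x) (fderiv ℝ (ps M A B) x v) := by
    have := DFunLike.congr_fun ((d2.clm_apply (hasFDerivAt_const er x)).unique
      ((dL.comp x d1).congr_of_eventuallyEq (by
        filter_upwards [p6_open.mem_nhds h, continuous_snd.fst.continuousAt.eventually_const_lt r]
          with y h1 h2 using t.ps_er h1 h2.le))) v
    simpa using this
  refine (d3.clm_apply d4).congr_deriv ?_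
  rw [t.ps_er h r.le, l, map_zero, add_zero,
    (c1.isSymmSndFDerivAt (by simp [minSmoothness_of_isRCLikeNormedField]; norm_cast)).eq er v, e]
  exact neg_add_cancel _

/-- **The form is constant along the rays.** -/
theorem om_ray (h : x.2.2 ≠ 0) (r : 6 * M < R) (k : R ≤ x.2.1)
    (n : ∀ s ∈ Icc R x.2.1, Ng M a g (ps M A B (anc s x))) (v : E6) :
    om M a A B g x v = om M a A B g (anc R x) (hz v) := by
  have r0 : 0 < R := by linarith [abs_nonneg a, t.sub]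
  have d : ∀ s ∈ Icc R x.2.1, HasDerivAt (fun s => om M a A B g (anc s x) v) 0 s := fun s m =>
    t.om_cd (x := anc s x) (anc_p6 h (r0.trans_le m.1)) (r.trans_le m.1) (n s m) v
  have := constant_of_has_deriv_right_zero (fun s m => (d s m).continuousAt.continuousWithinAt)
    (fun s m => (d s (Ico_subset_Icc_self m)).hasDerivWithinAt) _ (right_mem_Icc.2 k)
  refine this.trans ?_
  conv_lhs => rw [← hz_add v]
  rw [map_add, map_smul, t.om_er (anc_p6 h r0) r.le (n R (left_mem_Icc.2 k)), smul_zero, add_zero]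

theorem om_gin (h : x.2.2 ≠ 0) (r : 6 * M < R) (k : R ≤ x.2.1) (v : E6) :
    om M a A B (gin M a) x v = om M a A B (gin M a) (anc R x) (hz v) :=
  t.om_ray h r k (fun s m => ng_gin t.sub (by
    rw [rd_ps (anc_p6 h (by linarith [abs_nonneg a, t.sub, m.1]))]; exact r.trans_le m.1)) v

theorem om_gT (h : x ∈ P6) (r : 6 * M < x.2.1) : om M a A B (gin M a) x (1, 0) = -1 := by
  obtain ⟨W, o, m, k⟩ := (ng_gin (p := ps M A B x) t.sub (by rwa [rd_ps h])).met
  rw [om, ContinuousLinearMap.comp_apply, t.ps_eT h r.le, ← (rp_tb o m).eq _ k,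
    gin_LT t.sub (by rw [rd_ps h]; exact r.le)]

end Th

end Vale.Agent.P354CQ
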