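import Vale.Agent.P354CQ.Exa
import Vale.Agent.P354F2.Defs

/-!
The identities along the rays in the ring of the smooth functions.
-/

set_option maxSynthPendingDepth 3

open scoped ContDiff
open Set Filter Topology

noncomputable section

namespace Vale.Agent.P354CQ

open Vale.Agent.P354n (R4)
open Vale.Agent.P354R (Met)
open Vale.Agent.P354RC (cv bs)
open Vale.Agent.P354XG Vale.Agent.P354XD Vale.Agent.P354XI
open Vale.Agent.P354XE (Tw)
open Vale.Agent.P354XO (Om Cht b4)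
open Vale.Agent.P354Z (Cs uu Cone ge)
open Vale.Agent.P354YK (fv_d fv_R cone_pos)

variable {M : ℝ} {O : Set E6} {g : Tw} {y v w : E6}

theorem ray_d {f : E6 → ℂ} (o : IsOpen O) (hy : y ∈ O) (r : y.2.1 ≠ 0)
    (d : DifferentiableAt ℝ f y) (k : ∀ x ∈ O, uu M x = uu M y → x.2.2 = y.2.2 → f x = f y) :
    fderiv ℝ f y (Rv M y) = 0 := by
  have e : ki (4 * M ^ 2) (anc y.2.1 (ko (4 * M ^ 2) y)) = y := ki_ko _ y
  have d1 := (ki_d (m := 4 * M ^ 2) (x := anc y.2.1 (ko (4 * M ^ 2) y)) r).comp_hasDerivAt y.2.1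
    (anc_dr _ _)
  have d2 := d.hasFDerivAt.comp_hasDerivAt_of_eq y.2.1 d1 e.symm
  have := d2.unique ((hasDerivAt_const y.2.1 (f y)).congr_of_eventuallyEq
    ((d1.continuousAt.eventually_mem (o.mem_nhds (by rwa [Function.comp, e]))).mono fun s m =>
      k _ m (by simp [uu, ki, ko, anc]) rfl))
  refine Eq.trans (congrArg _ ?_) this
  ext <;> simp [Rv, er, dR_ap, anc, ko]

theorem fv_dot (h : Cone O) (m : ∀ x ∈ O, ∃ W, IsOpen W ∧ Met g W ∧ pj x ∈ W) (hy : y ∈ O)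
    {X Y : Der (Sm (on O))} (e1 : ∀ f, fv (X f) y = fderiv ℝ (fv f) y v)
    (e2 : ∀ f, fv (Y f) y = fderiv ℝ (fv f) y w) :
    fv ((ge O g).dot ((hp _).prj X) ((hp _).prj Y)) y = 1 / 2 * (G6 g y v w : ℂ) := by
  have o := (cone_pos h).off
  have k := pj_d (h.pos y hy).2
  have c : ∀ a u, fderiv ℝ (fv ((hp (on O)).co a)) y u = cv a (fderiv ℝ pj y u) := fun a u => by
    rw [EventuallyEq.fderiv_eq (f := fun y => (cv a (pj y) : ℂ)) ((h.op.eventually_mem hy).mono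
      fun y hy => (fv_in _ hy).trans (ev_on (rs_co o a) hy))]
    exact DFunLike.congr_fun
      (Complex.ofRealCLM.hasFDerivAt.comp y ((cv a).hasFDerivAt.comp y k)).fderiv u
  have s : ∀ a b, fv (pb (on O) fun _ => gc g a b) y = g (pj y) (bs a) (bs b) := fun a b =>
    (fv_in _ hy).trans (ev_on (rs_pb o (on_of h.op fun x hx => by
      obtain ⟨W, o, m, j⟩ := m x hx
      exact (m.smooth _ _).contDiffAt (o.mem_nhds j))) hy)
  obtain ⟨W, o', m', j⟩ := m y hy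
  have e : ∀ f : Fin 4 → Sm (on O), fv (∑ a, f a) y = ∑ a, fv (f a) y := fun f =>
    map_sum (evO ⟨y, hy⟩) f _
  rw [G6, (rp_tb o' m').eq _ j]
  simp only [Geo.dot, e, fv_mul, ge, geo, Hp.geo, Hp.prj, Geo.dv, e1, e2, c, s, fv_alg _ hy, tb,
    sum_apply, smul_apply, ContinuousLinearMap.smulRight_apply, smul_eq_mul]
  push_cast
  simp only [Finset.mul_sum, mul_assoc]

theorem Rid.ring (k : Rid M O g) (h : Cone O) (m : ∀ x ∈ O, ∃ W, IsOpen W ∧ Met g W ∧ pj x ∈ W) :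
    P354F2.Rid M O g := by
  have R : ∀ y ∈ O, ∀ f, fv (P354F2.RO O M f) y = fderiv ℝ (fv f) y (Rv M y) :=
    fun y hy f => fv_R h _ _ _ f hy
  have z : ∀ w : ℂ × ℂ, P354F2.RO O M ((ge O g).dot ((hp _).prj (P354F2.RO O M))
      ((hp _).prj (pd (0, 0, w)))) = 0 := fun w => ext_fv h.op fun y hy => by
    rw [R y hy, fv_zero]
    refine ray_d h.op hy (h.pos y hy).1.ne' ((fv_sm h.op _ hy).differentiableAt (by simp))
      fun x hx e1 e2 => ?_
    rw [fv_dot h m hx (R x hx) fun f => fv_pd h.op _ f hx,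
      fv_dot h m hy (R y hy) fun f => fv_pd h.op _ f hy, k.RO x hx y hy e1 e2]
  refine ⟨ext_fv h.op fun y hy => ?_, ext_fv h.op fun y hy => ?_, fun i => ?_⟩
  · rw [fv_dot h m hy (R y hy) (R y hy), k.RR y hy, fv_zero]; simp
  · have e : fv (-1 : Sm (on O)) y = -1 := 
      (map_neg (evO ⟨y, hy⟩) 1).trans (congrArg _ (map_one _))
    rw [fv_mul, fv_dot h m hy (R y hy) (w := (1, 0)) fun f => by
      rw [fv_d h.op _ _ hy]; simp [d1, P354XD.d2, v1, Prod.mk_zero_zero], k.RT y hy, e,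
      show fv (2 : Sm (on O)) y = 2 from map_ofNat (evO ⟨y, hy⟩) 2]
    norm_num
  · have e : (hp (on O)).prj ((hp _).d i.succ.succ) = algebraMap ℂ (Sm (on O)) (d1 i.succ.succ) •
        (hp _).prj (pd (0, 0, (v1 i.succ.succ).2.2)) + algebraMap ℂ (Sm (on O)) (P354XD.d2 i.succ.succ) •
        (hp _).prj (pd (0, 0, (v2 i.succ.succ).2.2)) := by
      fin_cases i <;> exact funext fun a => hp_d _ _
    rw [e, Geo.dot_add_right, Geo.dot_smul_right, Geo.dot_smul_right, map_add, D_mul, D_mul, z, z]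
    simp

variable {c : Cs} {n : Kn} {Lv : Set ℝ} {a a' : E6 → E6} {α : E6 → ℝ} {A B : ℝ → ℝ} {φ : R4 → R4}
  {us : ℝ} {U : Set E6}

/-- **EXA**, for any chart a' of the scaffold which is ac in the straight coordinates. -/
theorem Xi.exa' (X : Xi c n Lv a α A B g φ us) (C : Cht U a')
    (e : ∀ x ∈ Om (D2 c (Dv n.r1 n.τ Lv)), ph c.M A B x ∈ U ∧ a' (ph c.M A B x) = ac c a α x) :
    Rid c.M (ac c a α '' Om (D2 c (Dv n.r1 n.τ Lv))) (P354XE.pb (b4 U a') g) :=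
  X.rid fun x hx => (e x hx).2 ▸ ⟨(C.dif_b4.sm _ ⟨_, ⟨_, (e x hx).1, rfl⟩, rfl⟩).differentiableAt
    (by simp), C.b4_a (e x hx).1⟩

/-- **EXA.** -/
theorem Xi.exa (X : Xi c n Lv a α A B g φ us) (hU : U = ph c.M A B '' Om (D0 c (Dv n.r1 n.τ Lv)))
    (ha : a' = ac c a α ∘ hp' c.M A B) (C : Cht U a') (h : Cone O)
    (s : O ⊆ ac c a α '' Om (D2 c (Dv n.r1 n.τ Lv)))
    (m : ∀ x ∈ O, ∃ W, P354XV.Lv (P354XE.pb (b4 U a') g) W ∧ pj x ∈ W) :
    P354F2.Rid c.M O (P354XE.pb (b4 U a') g) :=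
  ((X.exa' C fun x hx => ⟨hU ▸ ⟨x, ⟨hx.1.1, hx.2⟩, rfl⟩, by
    rw [ha, Function.comp, ((P354CS.pre c.M c.a A B X.th.A X.th.B).2.2.2.2.2.1 x).2.2.1]⟩).mono
      s).ring h fun x hx => (m x hx).imp fun _ k => ⟨k.1.isOpen, k.1.met, k.2⟩

end Vale.Agent.P354CQ
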