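import Vale.Agent.P354CQ.Exa

/-!
The chart of the scaffold: the orientation, the bounds far out, and the early region.
-/

open scoped ContDiff
open Set Filter Topology Metric
open Function (invFunOn Injective)

noncomputable section

namespace Vale.Agent.P354CQ

open Vale.Agent.P354n (R4)
open Vale.Agent.P354XG (E6)
open Vale.Agent.P354XD (pj cd_pj)
open Vale.Agent.P354XE (rd)
open Vale.Agent.P354XO
open Vale.Agent.P354YI (Jb)
open Vale.Agent.P354YO (sh sh_cd sh_inv rd_sh shv shv_cd)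
open Vale.Agent.P354Z (Cs Est uu)

variable {M a0 V : ℝ} {A B : ℝ → ℝ} {D : Set (ℝ × ℝ)} {F : E6 → E6} {x : E6} {p : R4}

theorem det_path {f : ℝ → R4 →L[ℝ] R4} {s t : ℝ} (h : s ≤ t) (c : ContinuousOn f (Icc s t))
    (i : ∀ r ∈ Icc s t, Injective (f r)) (k : 0 < (f s).det) : 0 < (f t).det := not_le.1 fun j => by
  obtain ⟨r, m, e⟩ := intermediate_value_Icc' h
    (ContinuousLinearMap.continuous_det.comp_continuousOn c) ⟨j, k.le⟩
  exact (LinearMap.bot_lt_ker_of_det_eq_zero e).ne' (LinearMap.ker_eq_bot.2 (i r m))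

theorem sh_dif (hA : ContDiff ℝ ∞ A) (hB : ContDiff ℝ ∞ B) : Dif {p | rd p ≠ 0} (sh A B) :=
  dif_of_left (g := sh (-A) (-B)) (isOpen_ne.preimage P354YR.rd_cont)
    (fun _ h => sh_cd h hA.contDiffAt hB.contDiffAt) (fun p h => sh_cd ((rd_sh A B p).trans_ne h)
      hA.neg.contDiffAt hB.neg.contDiffAt) fun p _ => sh_inv A B p

theorem det_sh (hA : ContDiff ℝ ∞ A) (hB : ContDiff ℝ ∞ B) (h : rd p ≠ 0) :
    0 < (fderiv ℝ (sh A B) p).det := by
  have := det_path (f := fun l => fderiv ℝ (sh (fun r => l * A r) fun r => l * B r) p) zero_le_one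
    (fun l _ => (ContDiffAt.fderiv (𝕜 := ℝ) (n := ∞) (m := 0) (g := fun _ => p)
      (f := fun l => sh (fun r => l * A r) fun r => l * B r) (shv_cd.contDiffAt.comp (l, p)
        (f := fun z : ℝ × R4 => (z.2.1 + z.1 * A (rd z.2), z.1 * B (rd z.2), z.2)) (by
          have r : ContDiffAt ℝ ∞ (fun z : ℝ × R4 => rd z.2) (l, p) :=
            ContDiffAt.comp (g := rd) (f := Prod.snd) (l, p) (P354XA.rd_cd h) contDiffAt_snd
          exact (contDiffAt_snd.fst.add (contDiffAt_fst.mul (hA.contDiffAt.comp _ r))).prodMk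
            ((contDiffAt_fst.mul (hB.contDiffAt.comp _ r)).prodMk contDiffAt_snd)))
      contDiffAt_const (by norm_cast)).continuousAt.continuousWithinAt)
    (fun l _ => (sh_dif (contDiff_const.mul hA) (contDiff_const.mul hB)).fd p h) (by
      rw [show sh (fun r => 0 * A r) (fun r => 0 * B r) = id from
        funext fun q => P354YO.sh_id (zero_mul _) (zero_mul _), fderiv_id]
      simp [ContinuousLinearMap.det])
  simpa only [one_mul] using this

/-- Bounds on compact sets. -/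
theorem dif_bd {O K : Set R4} {Φ : R4 → R4} (h : Dif O Φ) (k : IsCompact K) (s : K ⊆ O) (n : ℕ) :
    ∃ C, ∀ p ∈ K, Jb n Φ p C ∧ ∀ v, ‖v‖ ≤ C * ‖fderiv ℝ Φ p v‖ := by
  have h1 : ∀ i : ℕ, ∃ C, ∀ p ∈ K, ‖iteratedFDeriv ℝ i Φ p‖ ≤ C := fun i =>
    k.exists_bound_of_continuousOn fun p hp => ((h.sm p (s hp)).iteratedFDeriv_right (m := 0)
      (by exact_mod_cast le_top)).continuousAt.continuousWithinAt
  choose C hC using h1
  obtain ⟨C', hC'⟩ := k.exists_bound_of_continuousOn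
    (f := fun p => fderiv ℝ (invFunOn Φ O) (Φ p)) fun p hp =>
      (((h.sm_inv ⟨p, s hp, rfl⟩).fderiv_right (m := 0) (by norm_cast)).continuousAt.comp
        (h.sm p (s hp)).continuousAt).continuousWithinAt
  refine ⟨max C' (∑ i ∈ Finset.range (n + 1), |C i|), fun p hp => ⟨fun i hi => ?_, fun v => ?_⟩⟩
  · exact (hC i p hp).trans ((le_abs_self _).trans ((Finset.single_le_sum
      (fun i _ => abs_nonneg (C i)) (Finset.mem_range.2 (by omega))).trans (le_max_right _ _)))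
  · have e := DFunLike.congr_fun ((((h.sm_inv ⟨p, s hp, rfl⟩).differentiableAt
      (by simp)).hasFDerivAt.comp p (h.diff (s hp))).unique ((hasFDerivAt_id p).congr_of_eventuallyEq
        ((h.op.eventually_mem (s hp)).mono fun _ => h.left))) v
    exact (congrArg norm e).ge.trans (ContinuousLinearMap.le_of_opNorm_le _
      ((hC' p hp).trans (le_max_left _ _)) _)

theorem lift_r (p : R4) : (lift p).1 = p.1 ∧ (lift p).2.1 = rr p := by
  rw [lift]; split_ifs <;> exact ⟨rfl, rfl⟩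

namespace Th
variable (t : Th M a0 A B)
include t

theorem cph : Cht P6 (ph M A B) := (P354CS.pre M a0 A B t.A t.B).2.1
theorem hp_ph (x : E6) : hp' M A B (ph M A B x) = x :=
  ((P354CS.pre M a0 A B t.A t.B).2.2.2.2.2.1 x).2.2.1
theorem ph_p6 (h : x ∈ P6) : ph M A B x ∈ P6 := (P354CS.pre M a0 A B t.A t.B).2.2.2.1 h

/-- A chart in the straight coordinates is a chart of the scaffold. -/
theorem cht (C : Cht (Om D) F) : Cht (ph M A B '' Om D) (F ∘ hp' M A B) :=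
  ((P354CS.pre M a0 A B t.A t.B).2.2.1.mono (t.cph.mono C.eqv.toCn C.eqv.pos).cn
    fun _ ⟨x, hx, e⟩ => e ▸ t.ph_p6 (C.eqv.pos x hx)).comp C
    fun _ ⟨x, hx, e⟩ => by rwa [← e, t.hp_ph]

theorem ps_sc (h : x ∈ P6) {z : ℂ} (hz : z ≠ 0) : ps M A B (sc z x) = ps M A B x := by
  rw [ps, Function.comp, Function.comp, t.cph.eqv.eqv x h z hz, pj_sc hz]

end Th

variable {c : Cs} {n : Kn} {Lv : Set ℝ} {a : E6 → E6} {α : E6 → ℝ}

namespace Su

theorem far_cht (h : Su c n Lv a α) : Cht (Om {p ∈ Wd (Dv n.r1 n.τ Lv) (Ra c) | Ra c + 1 / 4 < p.2})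
    (ki (4 * c.M ^ 2) ∘ far (Ra c) a α) := by
  obtain ⟨a1, -, -, a4⟩ := h.nm.rad
  have o := h.dk.wop.inter (isOpen_lt (continuous_const (y := Ra c + 1 / 4)) continuous_snd)
  have s : Om {p ∈ Wd (Dv n.r1 n.τ Lv) (Ra c) | Ra c + 1 / 4 < p.2} ⊆
      Om (Wd (Dv n.r1 n.τ Lv) (Ra c)) := fun _ k => ⟨k.1.1, k.2⟩
  have f := (h.lb.far_dif h.dk).mono (om_open o) s
  have C : Cht _ (far (Ra c) a α) := ⟨⟨cn_om o fun q k => by linarith [show _ < q.2 from k.2], f.sm,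
    fun x hx z => h.lb.far_eqv (s hx), fun x hx => by
      simpa [far, er] using h.lb.box.xi_ne (anc_mem (s hx))⟩, f, fun x hx => by
    have r : Ra c + 1 / 4 < x.2.1 := hx.1.2
    have b := (abs_le.1 (h.lb.rad_b (s hx))).1
    rw [abs_of_nonneg (by linarith)] at b
    rw [show (far (Ra c) a α x).2.1 = rad (Ra c) a α x by simp [far, rad, er]]
    nlinarith [h.nm.e1, h.e0]⟩
  exact C.comp (ki_cht _) fun x hx => ⟨C.pos x hx, C.eqv.ne x hx⟩

/-- **The bounds far out.** -/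
theorem ext (h : Su c n (Iio V) a α) (t : Th c.M a0 A B) (m : ℕ) : ∃ C,
    ∀ x ∈ Om (Dv n.r1 n.τ (Iio V)), c.R1 + 4 ≤ x.2.1 → bb c x.2.1 ≤ x.1 →
      Jb m (dn4 (ac c a α ∘ hp' c.M A B)) (pj (ph c.M A B x)) C ∧
      ∀ v, ‖v‖ ≤ C * ‖fderiv ℝ (dn4 (ac c a α ∘ hp' c.M A B)) (pj (ph c.M A B x)) v‖ := by
  obtain ⟨a1, a2, a3, a4⟩ := h.nm.rad
  obtain ⟨-, -, a5, a6⟩ := h.num
  obtain ⟨r, hr⟩ : ∃ r, r = 2 * (V - n.f (c.R1 + 1)) + 3 * (c.R1 + 1) := ⟨_, rfl⟩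
  have nr := fun u => h.nm.tz.near (u, Ra c) (by linarith) (by linarith)
  have s : Icc (-r) (V - n.f (Ra c) - 1) ×ˢ Icc (c.R1 + 4) r ×ˢ sphere (0 : ℂ × ℂ) 1 ⊆
      Om {p ∈ Wd (Dv n.r1 n.τ (Iio V)) (Ra c) | Ra c + 1 / 4 < p.2} := fun x hx =>
    ⟨⟨⟨show n.r1 < Ra c by linarith, (nr _).trans_lt (by linarith [hx.1.2])⟩,
      by linarith [hx.2.1.1]⟩, fun e => by simpa [e] using hx.2.2⟩
  have f := h.far_cht
  obtain ⟨C, hC⟩ := dif_bd (t.cht f).dif4 ((isCompact_Icc.prod (isCompact_Icc.prod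
    (isCompact_sphere _ _))).image_of_continuousOn (f := ps c.M A B) fun x hx =>
      (t.ps_cd (f.eqv.pos x (s hx))).continuousAt.continuousWithinAt)
    (fun _ ⟨x, hx, e⟩ => ⟨_, ⟨x, s hx, rfl⟩, e⟩) m
  refine ⟨C, fun x hx r1 b => ?_⟩
  have p := h.cht.eqv.pos x hx
  have p' := t.ph_p6 p
  have b1 := h.tau_low (p := (x.1, x.2.1)) (by linarith)
  have b2 := h.nm.tz.mono_r (u := x.1) (r := Ra c) (r' := x.2.1) (by linarith) (by linarith)
    (by linarith)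
  have b3 : n.τ (x.1, x.2.1) < V := hx.1.2
  rw [bb_far h.nm.ok (by linarith)] at b
  rw [nr] at b2
  dsimp only at b1 b2
  have k := hC _ ⟨sc (nz x)⁻¹ x, ⟨⟨show _ ≤ x.1 by linarith, show x.1 ≤ _ by linarith⟩,
    ⟨r1, show x.2.1 ≤ _ by linarith⟩, mem_sphere_zero_iff_norm.2 (norm_unit hx.2)⟩,
    t.ps_sc p (inv_ne_zero (nz_ne hx.2))⟩
  have e : dn4 (ac c a α ∘ hp' c.M A B) =ᶠ[𝓝 (ps c.M A B x)]
      dn4 ((ki (4 * c.M ^ 2) ∘ far (Ra c) a α) ∘ hp' c.M A B) := by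
    have e1 : rr (ps c.M A B x) = x.2.1 := rr_pj p'.1 p'.2
    refine ((cd_rr (e1.trans_ne (ne_of_gt p.1))).continuousAt.eventually_const_lt
      (show Ra c + 1 / 4 < _ by linarith)).mono fun q j => congrArg (fun y => pj (ki _ y)) ?_
    exact glu_far (j.le.trans (lift_r q).2.ge)
  exact ⟨k.1.congr e, fun v => (e.fderiv_eq (𝕜 := ℝ)).symm ▸ k.2 v⟩

variable (h : Su c n Lv a α) (hx : x ∈ Om (Dv n.r1 n.τ Lv))
include h hx

/-- The chart is the inverse of sh A B where glu is the identity. -/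
theorem idn (t : Th c.M a0 A B) {us : ℝ} (i : ∀ y : E6, y.1 < us → glu (Ra c) a α y = y)
    (u : x.1 < us) : dn4 (ac c a α ∘ hp' c.M A B) =ᶠ[𝓝 (pj (ph c.M A B x))] sh (-A) (-B) := by
  have C := (t.cht (D := {p ∈ Dv n.r1 n.τ Lv | p.1 < us}) (h.cht.mono (cn_om (h.dk.op.inter
    (isOpen_lt continuous_fst continuous_const)) fun q k =>
      (h.num.1.trans_le h.num.2.1).trans k.1.1) fun y k => ⟨k.1.1, k.2⟩)).eqv
  refine mem_of_superset (C.shadow.mem_nhds ⟨_, ⟨x, ⟨⟨hx.1, u⟩, hx.2⟩, rfl⟩, rfl⟩) ?_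
  rintro _ ⟨_, ⟨y, hy, rfl⟩, rfl⟩
  have p := C.pos _ ⟨y, hy, rfl⟩
  refine (C.pj_dn ⟨y, hy, rfl⟩).trans ?_
  rw [← P354CS.pj_s6 p, Function.comp, t.hp_ph, ac, Function.comp, i y hy.1.2, ph, Function.comp,
    ((P354CS.pre c.M a0 A B t.A t.B).2.2.2.2.2.1 _).1]

/-- **The orientation.** -/
theorem det (t : Th c.M a0 A B) : 0 < LinearMap.det
    (fderiv ℝ (dn4 (ac c a α ∘ hp' c.M A B)) (pj (ph c.M A B x)) : R4 →ₗ[ℝ] R4) := by
  have C := t.cht h.cht
  have m : ∀ s ≤ x.1, (s, x.2) ∈ Om (Dv n.r1 n.τ Lv) := fun s k => ⟨h.dk.down _ hx.1 s k, hx.2⟩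
  refine det_path (f := fun s => fderiv ℝ (dn4 (ac c a α ∘ hp' c.M A B)) (ps c.M A B (s, x.2)))
    (min_le_left x.1 (-(2 * c.R1) - 1)) (fun s k => ?_)
    (fun s k => C.dif4.fd _ ⟨_, ⟨_, m s k.2, rfl⟩, rfl⟩) ?_
  · exact (((C.dif4.sm _ ⟨_, ⟨_, m s k.2, rfl⟩, rfl⟩).fderiv_right (m := 0)
      (by norm_cast)).continuousAt.comp (f := fun s => ps c.M A B (s, x.2)) ((t.ps_cd (h.cht.eqv.pos _ (m s k.2))).continuousAt.comp
        (f := fun s : ℝ => ((s, x.2) : E6)) (by fun_prop))).continuousWithinAt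
  · have k := m _ (min_le_left x.1 (-(2 * c.R1) - 1))
    rw [show ps c.M A B _ = pj (ph c.M A B _) from rfl, (h.idn k t (fun y j => h.early j.le)
      ((min_le_right _ _).trans_lt (sub_one_lt _))).fderiv_eq]
    exact det_sh t.A.neg t.B.neg ((rd_ps (h.cht.eqv.pos _ k)).trans_ne (h.cht.eqv.pos _ k).1.ne')

/-- The points above the bottom stay above the bottom. -/
theorem ab_up (b : bb c x.2.1 + 1 / 4 ≤ x.1) : Est.Ab c (ac c a α x) := by
  obtain ⟨a1, a2, a3, a4⟩ := h.nm.rad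
  have a5 := (h.nm.k1 h.e0).2.2.2
  have r1 : n.r1 < x.2.1 := hx.1.1
  have g := h.lb.glu_ge h.dk h.id hx
  rw [ac_ab]
  rcases lt_or_ge x.2.1 c.Rs with r | r
  · have k1 := h.r_near hx r
    have k2 := abs_le.1 k1
    have k3 : c.r1 ≤ (glu (Ra c) a α x).2.1 := by linarith [h.nm.r1]
    have k4 := h.nm.uc _ ⟨k3, by linarith⟩ x.2.1 ⟨by linarith [h.num.2.1], by linarith⟩ k1
    exact (le_min (by linarith) (h.nm.ti _ k3)).trans g
  · rcases le_total x.1 (-(2 * c.R1)) with u | u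
    · rw [h.early u]; linarith
    · have k := (h.r_two hx (by linarith)).1
      rw [bb_far h.nm.ok (by linarith)]
      exact (le_min (by linarith) (by linarith [h.nm.t0])).trans g

/-- The time of the estimates in the early region. -/
theorem t_early (u : x.1 ≤ n.ti) : |(ac c a α x).1 - (x.1 - 4 * c.M ^ 2 / x.2.1)| ≤ 1 / 4 := by
  obtain ⟨a1, a2, a3, a4⟩ := h.nm.rad
  rcases le_total x.2.1 (Ra c) with r | r
  · rw [ac, Function.comp, glu_near r, h.id x u]; simp [ki]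
  · obtain ⟨k1, k2⟩ := h.r_two hx r
    have k3 := h.lb.glu_r h.dk hx
    have M0 := (ok_num h.nm.ok).2.1
    have M1 := h.nm.ok.R1
    have e0 := h.e0
    have k4 : n.e * c.M ≤ 1 / 1000 := by
      nlinarith [(h.nm.k0 e0).2, (h.nm.k1 e0).2.2.2]
    rw [max_eq_right (sub_nonneg.2 r)] at k3
    have p : 0 < (glu (Ra c) a α x).2.1 := by linarith
    have q : 0 < x.2.1 := by linarith
    rw [show (ac c a α x).1 = (glu (Ra c) a α x).1 - 4 * c.M ^ 2 / (glu (Ra c) a α x).2.1 from rfl,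
      (glu_early h.id u).1, sub_sub_sub_cancel_left, div_sub_div _ _ q.ne' p.ne', abs_div,
      abs_of_pos (mul_pos q p), div_le_iff₀ (mul_pos q p), mul_comm x.2.1, ← mul_sub, abs_mul,
      abs_of_nonneg (by positivity)]
    have k5 : |(glu (Ra c) a α x).2.1 - x.2.1| ≤ n.e * x.2.1 := k3.trans (by nlinarith)
    have k6 := mul_le_mul_of_nonneg_left k5 (show 0 ≤ 4 * c.M ^ 2 by positivity)
    have k7 : 4 * c.M ^ 2 * n.e ≤ 1 / 4 * (glu (Ra c) a α x).2.1 := by nlinarith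
    nlinarith

end Su

end Vale.Agent.P354CQ
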