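import Vale.Agent.P354MG.Asm
import Vale.Agent.P354CQ.Exr
import Vale.Agent.P354CQ.Lce
import Vale.Agent.P354RI.Core
import Vale.Agent.P354TS.Tz

/-!
GEO: the regions of the state of the estimates.
-/

open scoped ContDiff
open Set Filter Topology

noncomputable section

namespace Vale.Agent.P354CQ

open Vale.Agent.P354n (R4)
open Vale.Agent.P354XG (E6)
open Vale.Agent.P354XD (pj)
open Vale.Agent.P354XE (Tw rd pb ur)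
open Vale.Agent.P354XO
open Vale.Agent.P354XV (Fst Flt Sw)
open Vale.Agent.P354YT (Pm tb tb_d)
open Vale.Agent.P354MG (Fx Va Qn Ge GEO)
open Vale.Agent.P354RI

theorem lv_pb {O W : Set R4} {b : R4 → R4} {g : Tw} {p : R4} (d : Dif O b) (l : P354XV.Lv g W)
    (hp : p ∈ O) (k : b p ∈ W) : ∃ W, P354XV.Lv (pb b g) W ∧ p ∈ W :=
  ⟨O ∩ b ⁻¹' W, l.pull (f := b) ⟨ContinuousOn.isOpen_inter_preimage
    (fun q m => (d.sm q m).continuousAt.continuousWithinAt) d.op l.isOpen, l.isOpen, l.met,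
    fun q m => (d.sm q m.1).contDiffWithinAt, fun _ m => m.2, fun q m => d.fd q m.1,
    fun _ _ _ _ => rfl⟩, hp, k⟩

theorem sw_int {c : Pm} {p : R4} (o : c.Ok) (r : c.R1 - 1 / 2 < rd p)
    (t : tb c.M c.a (rd p) < p.1) : p ∈ interior (Sw c) := by
  have cr : ContinuousAt rd p := P354YR.rd_cont.continuousAt
  refine mem_interior_iff_mem_nhds.2 ?_
  filter_upwards [cr.eventually_const_lt r, ((tb_d o.sub (o.rpR.trans r)).continuousAt.comp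
    cr).eventually_lt continuousAt_fst t] with q h1 h2
  exact ⟨(o.r1.2.trans o.rpR).trans h1, fun _ => h2.le, fun k => (h1.not_ge k).elim⟩

variable {f : Fx} {v : Va} {q : Qn} {Rs Rb : ℝ} {x y : E6}

namespace Gx

theorem th (o : f.Ok) : Th f.z.M f.z.a f.A f.B :=
  ⟨(o.ok.ok _ le_rfl _ le_rfl).1.1.sub, o.nu.th, o.nu.sA, o.nu.sB⟩

theorem ps_eq (hx : x ∈ P6) : ps f.z.M f.A f.B x = f.S (pj x) := ps_st hx
theorem pj_P (hx : x ∈ P6) : pj (f.P x) = f.S (pj x) := ps_st hx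
theorem rd_S (hx : x ∈ P6) : rd (f.S (pj x)) = x.2.1 := ps_eq hx ▸ rd_ps hx
theorem t_S (hx : x ∈ P6) : (f.S (pj x)).1 = x.1 - 4 * f.z.M ^ 2 / x.2.1 + f.A x.2.1 :=
  ps_eq hx ▸ rfl

theorem tau_S (o : f.Ok) (hs : f.z.R1 + 1 ≤ Rs) (Rb : ℝ) (hx : x ∈ P6) :
    (f.z.pm Rs Rb).tau (f.S (pj x)) = tz f.z f.A f.B Rs (x.1, x.2.1) := by
  obtain ⟨L, hL⟩ := P354TS.tz_ok f.z f.A f.B o.ok o.nu.th
  obtain ⟨-, -, e⟩ := hL Rs hs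
  exact pj_P hx ▸ e Rb x hx

theorem ur_S (o : f.Ok) (hx : x ∈ P6) (r : 6 * f.z.M ≤ x.2.1) :
    ur f.z.M f.z.a (f.S (pj x)) = x.1 - f.k :=
  pj_P hx ▸ (((P354CS.pre _ _ _ _ o.nu.sA o.nu.sB).2.2.2.2.2.2.2 (th o).sub o.nu.th).2 x hx
    r).2.2 _ o.nu.nrm

theorem p6 (o : f.Ok) {Lv : Set ℝ} (hx : x ∈ Om (f.D Rs Lv)) : x ∈ P6 :=
  have s := (o.ok.ok _ le_rfl _ le_rfl).1.1
  ⟨(P354XA.hor s.sub).2.1.trans_lt (s.r1.1.trans hx.1.1), hx.2⟩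

/-- The points above the bottom are points of the end. -/
theorem pt (o : f.Ok) (hs : f.z.R1 + 1 ≤ Rs) (hb : f.z.R1 + 2 ≤ Rb) {Lv : Set ℝ}
    (hx : x ∈ Om (f.D Rs Lv)) (b : f.a.bt x.2.1 + 4 * f.z.M ^ 2 / x.2.1 - 3 / 2 ≤ x.1) :
    f.z.Pt Rs Rb Lv (f.S (pj x)) := by
  have p := p6 o hx
  obtain ⟨e1, e2⟩ := o.nu.en (f.S (pj x)).1 x.2.1 (by rw [t_S p]; linarith)
  refine ⟨((o.ok.ok Rs hs Rb hb).1.1.En_iff f.z.θ _).2 ⟨show f.z.r1 < _ from rd_S p ▸ hx.1.1,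
    le_trans (by linarith [o.ok.θ.1, o.ok.θ.2]) e1.le, ?_⟩, tau_S o hs Rb p ▸ hx.1.2⟩
  rw [rd_S p]
  exact fun j => le_trans (le_add_of_nonneg_right (by norm_num)) (e2 j)

/-- The first order form of the gauge above the slice. -/
theorem fst (o : f.Ok) (hs : f.z.R1 + 1 ≤ Rs) (hb : f.z.R1 + 2 ≤ Rb) (G : P354MG.Gm f v Rs Rb)
    (hx : x ∈ Om (f.D Rs v.Lv)) (r : f.z.R1 ≤ x.2.1)
    (b : f.a.bt x.2.1 + 4 * f.z.M ^ 2 / x.2.1 - 3 / 2 ≤ x.1 ∨ f.R ≤ x.2.1 ∧ f.us - 1 / 16 ≤ x.1) :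
    ∀ᶠ p in 𝓝 (f.S (pj x)), Fst (f.z.pm Rs Rb) f.z.κ v.g p ∧ Flt (f.z.pm Rs Rb) v.g p := by
  have p := p6 o hx
  have s := (o.ok.ok Rs hs Rb hb).1.1
  have s1 : P354I.rp f.z.M f.z.a < f.z.R1 - 1 / 2 := s.rpR
  refine G.fst _ (sw_int s (show f.z.R1 - 1 / 2 < _ by rw [rd_S p]; linarith) ?_)
    (tau_S o hs Rb p ▸ hx.1.2)
  show tb f.z.M f.z.a _ < _
  rw [rd_S p]
  rcases b with b | b
  · linarith [(o.nu.en (f.S (pj x)).1 x.2.1 (by rw [t_S p]; linarith)).2 (by linarith)]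
  · have m : tb f.z.M f.z.a (f.z.R1 + 9 / 4) ≤ tb f.z.M f.z.a x.2.1 :=
      s.tb_mono (show P354I.rp f.z.M f.z.a < _ by linarith)
        (show P354I.rp f.z.M f.z.a < _ by linarith) b.1
    have b1 : f.z.R1 + 9 / 4 ≤ x.2.1 := b.1
    rw [t_S p, o.nu.nrm _ (by linarith [o.nu.r1.2.2.2.2, show 0 < f.z.M from s.M0])]
    linarith [o.nu.us1, b.2]

variable (G : Ge f v q Rb)
include G

theorem rs : f.z.R1 + 4 ≤ q.c.Rs := by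
  obtain ⟨a1, a2, a3, -⟩ : 10 ≤ f.z.R1 ∧ 10 * f.z.R1 ≤ q.c.R2 ∧ 10 * q.c.R2 ≤ q.c.Rs ∧ _ :=
    G.su.nm.rad
  linarith

theorem cht0 : Cht (f.X0 v q) (f.ac v q) :=
  G.su.cht.mono (cn_om G.su.op0 fun _ k => (G.su.num.1.trans_le G.su.num.2.1).trans k.1.1)
    fun _ k => ⟨k.1.1, k.2⟩

variable (o : f.Ok)
include o

theorem cht : Cht (f.U v q) (f.ch v q) := (th o).cht (cht0 G)

omit G in
theorem ch_P (x : E6) : f.ch v q (f.P x) = f.ac v q x := congrArg _ ((th o).hp_ph x)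

theorem pt0 (hx : x ∈ f.X0 v q) : f.z.Pt q.c.Rs Rb v.Lv (f.S (pj x)) :=
  pt o (by linarith [rs G]) G.rb ⟨hx.1.1, hx.2⟩ (by
    linarith [show f.a.bt x.2.1 + 4 * f.z.M ^ 2 / x.2.1 - 1 < x.1 from hx.1.2])

theorem b4_ac (hx : x ∈ f.X0 v q) : b4 (f.U v q) (f.ch v q) (pj (f.ac v q x)) = f.S (pj x) := by
  rw [← ch_P o, (cht G o).b4_a ⟨x, hx, rfl⟩, pj_P ((cht0 G).eqv.pos x hx)]

theorem lv0 (hx : x ∈ f.X0 v q) : ∃ W, P354XV.Lv (f.gE v q) W ∧ pj (f.ac v q x) ∈ W :=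
  let ⟨_, l, k⟩ := G.lv _ (pt0 G o hx)
  lv_pb (cht G o).dif_b4 l ⟨_, ⟨_, ⟨x, hx, rfl⟩, ch_P o x⟩, rfl⟩ (b4_ac G o hx ▸ k)

theorem xi : Xi (f.c q) (f.n q) v.Lv (f.na v) (f.al v) f.A f.B v.g (f.phi v) f.us := by
  have hs : f.z.R1 + 1 ≤ q.c.Rs := by linarith [rs G]
  have s := (o.ok.ok _ hs Rb G.rb).1.1
  have a1 := o.nu.r1.2.2.2.2
  have a2 : 0 < f.z.M := s.M0
  refine ⟨G.su, rfl, th o, G.lf, ?_, fun x hx u r => ?_, fun x hx u => ?_⟩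
  · linarith [o.nu.us3.2, G.su.nm.t0]
  · have r' : f.z.R1 + 9 / 4 ≤ x.2.1 := r
    have p := p6 o hx
    exact ps_eq p ▸ ng_fst s ((fst o hs G.rb G.toGm hx (by linarith) (.inr ⟨r, by linarith⟩)).mono
      fun _ k => k.1) (show f.z.R1 + 7 / 4 ≤ _ by rw [rd_S p]; linarith)
  · have r : f.z.R1 + 5 / 2 < x.2.1 := hx.1.2
    have p := p6 o (of2 hx)
    have b : f.a.bt x.2.1 + 4 * f.z.M ^ 2 / x.2.1 - 1 < x.1 := hx.1.1.2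
    obtain ⟨k', k⟩ :=
      (fst o hs G.rb G.toGm (of2 hx) (by linarith) (.inl (by linarith))).self_of_nhds
    obtain ⟨W, l, m⟩ := k'.lv
    exact ps_eq p ▸ ⟨⟨W, l.isOpen, l.met, m⟩, k (show f.z.R1 + 2 ≤ _ by rw [rd_S p]; linarith)
      ((ur_S o p (by linarith)).trans_le (show _ ≤ -(f.z.R1 + 2) - tb f.z.M f.z.a (f.z.R1 + 2) by
        linarith [o.nu.us2]))⟩

omit o in
theorem co2 : P354Z.Cone (f.O2 v q) := core_cone (G.su.cone G.su.op2 fun _ k => k.1.1)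

theorem pre : P354F2.Pre f.z.M (f.z.R1 + 3) (f.O2 v q) (f.gE v q) := by
  have l : ∀ y ∈ f.O2 v q, ∃ W, P354XV.Lv (f.gE v q) W ∧ pj y ∈ W := fun y hy =>
    let ⟨x, hx, e⟩ := core_sub hy
    e ▸ lv0 G o ⟨hx.1.1, hx.2⟩
  refine ⟨co2 G, fun y hy => ?_, fun _ => core_star, l,
    (xi G o).exa rfl rfl (cht G o) (co2 G) core_sub l⟩
  obtain ⟨x, hx, rfl⟩ := core_sub hy
  have r : f.z.R1 + 5 / 2 < x.2.1 := hx.1.2
  have k : f.z.R1 + 9 / 4 - q.e + (1 - q.e) * (x.2.1 - (f.z.R1 + 9 / 4)) ≤ (f.ac v q x).2.1 :=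
    G.su.lb.r_low G.su.dk (of2 hx) (show f.z.R1 + 9 / 4 ≤ _ by linarith)
  have e1 : q.e ≤ 1 / 1000 := G.su.nm.e1
  nlinarith [o.nu.r1.2.2.2.2, (th o).sub, abs_nonneg f.z.a]

omit o in
theorem rg (F e0) : Rg (f.c q) (f.n q) v.Lv (f.na v) (f.al v) (f.E v q F e0) :=
  G.su.rg rfl rfl (co2 G) core_sub (fun _ hx => core_m2 G.su hx) rfl rfl

omit o in
theorem seg (hx : x ∈ f.X1 v q) (b : P354Z.Est.Fa (f.c q) (f.ac v q x))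
    (hy : y ∈ P354F2.Seg f.z.M (f.z.R1 + 3) (f.ac v q x)) :
    ∃ x' ∈ f.X1 v q, f.ac v q x' = y ∧ x'.1 = x.1 ∧ x'.2.1 ≤ x.2.1 := by
  have h := G.su
  obtain ⟨-, s1, s2, s3, -⟩ := seg_fa b.1 b.2 hy
  obtain ⟨r, hr, e⟩ := ac_ray h (of1 hx) (by linarith [h.r_gt (of1 hx) b.1]) s1 s2
  replace e := e.trans (seg_uu hy).2.2
  have m : anc r x ∈ Om (Dv (f.n q).r1 (f.n q).τ v.Lv) :=
    ⟨h.dk.ray _ (of1 hx).1 r ⟨by linarith [hr.1, h.nm.rad.2.2.2], hr.2⟩, hx.2⟩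
  refine ⟨_, ⟨⟨⟨m.1, ab_low' h m ?_⟩, hr.2.trans_lt hx.1.2⟩, hx.2⟩, e, rfl, hr.2⟩
  rw [← ac_uu, ← ac_r, e, bb_far h.nm.ok s1]
  linarith

end Gx

/-- **GEO.** -/
theorem geo : GEO := fun _ _ _ _ o G =>
  ⟨Gx.cht G o, fun x hx => ⟨Gx.pj_P ((Gx.cht0 G).eqv.pos x hx), Gx.pt0 G o hx, Gx.lv0 G o hx⟩,
    Gx.pre G o, Gx.rg G, fun _ hx b _ => Gx.seg G hx b⟩

end Vale.Agent.P354CQ
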