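import Vale.Agent.P354CQ.Ray

/-!
The chart which is the near chart for r ≤ R and the chart along the rays for r ≥ R + 1 / 4.
-/

open scoped ContDiff
open Set Filter Topology Metric
open Function (invFunOn Injective)

noncomputable section

namespace Vale.Agent.P354CQ

open Vale.Agent.P354XG (E6)
open Vale.Agent.P354XO

theorem ex_kc : ∃ C ≥ (1 : ℝ), ∀ t, |deriv Real.smoothTransition t| ≤ C := by
  have hc : Continuous (deriv Real.smoothTransition) :=
    (Real.smoothTransition.contDiff (n := 1)).continuous_deriv le_rfl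
  obtain ⟨C, hC⟩ := (isCompact_Icc (a := (0 : ℝ)) (b := 1)).exists_bound_of_continuousOn
    hc.continuousOn
  refine ⟨max 1 C, le_max_left _ _, fun t => ?_⟩
  by_cases m : t ∈ Icc (0 : ℝ) 1
  · exact (hC t m).trans (le_max_right _ _)
  · have : deriv Real.smoothTransition t = 0 := by
      rcases not_and_or.1 m with k | k
      · exact (EventuallyEq.deriv_eq (f := fun _ => 0) ((eventually_lt_nhds (not_le.1 k)).mono
          fun _ j => Real.smoothTransition.zero_of_nonpos j.le)).trans (deriv_const _ _)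
      · exact (EventuallyEq.deriv_eq (f := fun _ => 1) ((eventually_gt_nhds (not_le.1 k)).mono
          fun _ j => Real.smoothTransition.one_of_one_le j.le)).trans (deriv_const _ _)
    rw [this, abs_zero]; positivity

/-- A bound of the derivative of the cut off. -/
def kc : ℝ := ex_kc.choose
theorem kc_ge : 1 ≤ kc := ex_kc.choose_spec.1
theorem kc_bd (t : ℝ) : |deriv Real.smoothTransition t| ≤ kc := ex_kc.choose_spec.2 t

/-- The cut off and the chart. -/
def chi (R : ℝ) (x : E6) : ℝ := Real.smoothTransition (4 * (x.2.1 - R))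
def glu (R : ℝ) (a : E6 → E6) (α : E6 → ℝ) (x : E6) : E6 := a x + chi R x • (far R a α x - a x)

variable {D : Set (ℝ × ℝ)} {R Rs L e ρ : ℝ} {w : ℝ → ℝ} {a : E6 → E6} {α : E6 → ℝ} {x y : E6}

theorem chi_sm (R : ℝ) : ContDiff ℝ ∞ (chi R) := Real.smoothTransition.contDiff.comp
  (contDiff_const.mul (contDiff_snd.fst.sub contDiff_const))
theorem chi_mem (R : ℝ) (x : E6) : 0 ≤ chi R x ∧ chi R x ≤ 1 :=
  ⟨Real.smoothTransition.nonneg _, Real.smoothTransition.le_one _⟩

theorem chi_d (R : ℝ) (x : E6) : ‖fderiv ℝ (chi R) x‖ ≤ 4 * kc := by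
  have : HasFDerivAt (chi R) (deriv Real.smoothTransition (4 * (x.2.1 - R)) • ((4 : ℝ) • dR)) x :=
    ((Real.smoothTransition.contDiff (n := 1)).differentiable (by simp) _).hasDerivAt.comp_hasFDerivAt
      x ((dR.hasFDerivAt.sub_const R).const_mul 4)
  rw [this.fderiv]
  refine ContinuousLinearMap.opNorm_le_bound _ (by linarith [kc_ge]) fun v => ?_
  simp only [smul_apply, smul_eq_mul, Real.norm_eq_abs, abs_mul, dR_ap]
  have := mul_le_mul (kc_bd (4 * (x.2.1 - R))) (abs_r v) (abs_nonneg _) (by linarith [kc_ge])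
  rw [abs_of_pos (by norm_num : (0 : ℝ) < 4)]
  linarith

theorem glu_near (h : x.2.1 ≤ R) : glu R a α x = a x := by
  rw [glu, chi, Real.smoothTransition.zero_of_nonpos (by linarith), zero_smul, add_zero]
theorem glu_far (h : R + 1 / 4 ≤ x.2.1) : glu R a α x = far R a α x := by
  rw [glu, chi, Real.smoothTransition.one_of_one_le (by linarith), one_smul, add_sub_cancel]
theorem ev_near (h : x.2.1 < R) : glu R a α =ᶠ[𝓝 x] a :=
  (continuous_snd.fst.continuousAt.eventually_lt continuousAt_const h).mono fun _ k => glu_near k.le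
theorem ev_far (h : R + 1 / 4 < x.2.1) : glu R a α =ᶠ[𝓝 x] far R a α :=
  (continuousAt_const.eventually_lt continuous_snd.fst.continuousAt h).mono fun _ k => glu_far k.le

theorem mem_cut (hx : x ∈ Om D) (h : x.2.1 < ρ) : x ∈ Om (cut D ρ) := ⟨⟨hx.1, h⟩, hx.2⟩
theorem of_cut (hx : x ∈ Om (cut D ρ)) : x ∈ Om D := ⟨hx.1.1, hx.2⟩

theorem three (R : ℝ) (x : E6) :
    x.2.1 < R ∨ R + 1 / 4 < x.2.1 ∨ (R ≤ x.2.1 ∧ x.2.1 ≤ R + 1 / 4) := by
  rcases lt_or_ge x.2.1 R with h | h
  · exact .inl h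
  · exact .inr ((lt_or_ge (R + 1 / 4) x.2.1).imp_right fun k => ⟨h, k⟩)

theorem far_id (h : a (anc R x) = anc R x) (k : α x = 1) : far R a α x = x := by
  rw [far, h, k]; ext <;> simp [anc, er]

namespace Lb
variable (h : Lb D R e w a α) (k : Dk D R Rs L)
include h k

theorem glu_sm (hx : x ∈ Om D) : ContDiffAt ℝ ∞ (glu R a α) x := by
  rcases three R x with r | r | r
  · exact (h.box.sm x (mem_cut hx (by linarith))).congr_of_eventuallyEq (ev_near r)
  · exact ((h.far_dif k).sm x (k.mem hx (by linarith))).congr_of_eventuallyEq (ev_far r)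
  · have := h.box.sm x (mem_cut hx (by linarith [r.2]))
    exact this.add ((chi_sm R).contDiffAt.smul (((h.far_dif k).sm x (k.mem hx r.1)).sub this))

theorem glu_eqv (hx : x ∈ Om D) {z : ℂ} (hz : z ≠ 0) :
    glu R a α (sc z x) = sc z (glu R a α x) := by
  rcases three R x with r | r | r
  · rw [glu_near r.le, glu_near (x := sc z x) r.le, h.box.eqv x (mem_cut hx (by linarith)) z hz]
  · rw [glu_far r.le, glu_far (x := sc z x) r.le, h.far_eqv (k.mem hx (by linarith)) hz]
  · rw [glu, glu, h.far_eqv (k.mem hx r.1) hz, h.box.eqv x (mem_cut hx (by linarith [r.2])) z hz,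
      map_add, map_smul, map_sub]
    rfl

/-- The two charts are close in the zone of the interpolation. -/
theorem far_sub (hx : x ∈ Om D) (n : ‖x.2.2‖ = 1) (r : R ≤ x.2.1) (r' : x.2.1 < R + 1 / 2) :
    ‖far R a α x - a x‖ ≤ 2 * e * (x.2.1 - R) := by
  have e1 : x - anc R x = (x.2.1 - R) • er := by ext <;> simp [anc, er]
  have n1 : ‖(x.2.1 - R) • er‖ = x.2.1 - R := by
    rw [norm_smul, norm_er, mul_one, Real.norm_of_nonneg (sub_nonneg.2 r)]
  have h1 := h.box.mvt (S := {x.1} ×ˢ Icc R x.2.1 ×ˢ {x.2.2}) (ρ := 1) (x := anc R x) (y := x)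
    ((convex_singleton _).prod ((convex_Icc _ _).prod (convex_singleton _))) le_rfl
    (fun u hu => by
      rw [hu.1, hu.2.2, n]
      exact ⟨⟨k.ray _ hx.1 _ hu.2.1, hu.2.1.2.trans_lt r'⟩, by simp, le_rfl⟩)
    ⟨rfl, ⟨le_rfl, r⟩, rfl⟩ ⟨rfl, ⟨r, le_rfl⟩, rfl⟩
  rw [dg_one, one_apply_eq_self, e1, n1] at h1
  have h2 : ‖((α x - 1) * (x.2.1 - R)) • er‖ ≤ e * (x.2.1 - R) := by
    rw [norm_smul, norm_er, mul_one, Real.norm_eq_abs, abs_mul, abs_of_nonneg (sub_nonneg.2 r)]
    exact mul_le_mul_of_nonneg_right (h.one x (k.mem hx r)) (sub_nonneg.2 r)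
  rw [show far R a α x - a x = ((α x - 1) * (x.2.1 - R)) • er -
    (a x - a (anc R x) - (x.2.1 - R) • er) by rw [far]; module]
  linarith [norm_sub_le (((α x - 1) * (x.2.1 - R)) • er) (a x - a (anc R x) - (x.2.1 - R) • er)]

theorem glu_d (hx : x ∈ Om D) (n : ‖x.2.2‖ = 1) :
    ‖fderiv ℝ (glu R a α) x - dg 1‖ ≤ e * (3 + 2 * kc + max 0 (x.2.1 - R)) := by
  have e0 := h.box.e0
  have k1 := kc_ge
  have m := le_max_left 0 (x.2.1 - R)
  rcases three R x with r | r | r
  · rw [(ev_near r).fderiv_eq]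
    exact (h.box.d x (mem_cut hx (by linarith)) n).trans (by nlinarith)
  · rw [(ev_far r).fderiv_eq]
    refine (h.far_b (k.mem hx (by linarith)) n).trans (mul_le_mul_of_nonneg_left ?_ e0)
    rw [abs_of_nonneg (by linarith), max_eq_right (by linarith)]
    linarith
  · have o := mem_cut hx (show x.2.1 < R + 1 / 2 by linarith [r.2])
    have d1 := (h.box.df o).hasFDerivAt
    have d2 := (h.far_dif k).diff (k.mem hx r.1)
    have d3 := ((chi_sm R).differentiable (by simp) x).hasFDerivAt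
    have d4 : HasFDerivAt (glu R a α) _ x := d1.add (d3.smul (d2.sub d1))
    have b1 := h.box.d x o n
    have b2 := h.far_b (k.mem hx r.1) n
    have b3 := h.far_sub k hx n r.1 (by linarith [r.2])
    obtain ⟨c0, c1⟩ := chi_mem R x
    rw [abs_of_nonneg (sub_nonneg.2 r.1)] at b2
    rw [d4.fderiv, show ∀ A B C : E6 →L[ℝ] E6, A + (chi R x • (B - A) + C) - dg 1 =
      (1 - chi R x) • (A - dg 1) + chi R x • (B - dg 1) + C from fun _ _ _ => by module]
    refine (norm_add₃_le).trans ?_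
    rw [norm_smul, norm_smul, ContinuousLinearMap.norm_smulRight_apply,
      Real.norm_of_nonneg c0, Real.norm_of_nonneg (sub_nonneg.2 c1)]
    have b4 := mul_le_mul (chi_d R x) (b3.trans (show _ ≤ e / 2 by nlinarith [r.2]))
      (norm_nonneg _) (by linarith)
    have b5 := mul_le_mul_of_nonneg_left b1 (sub_nonneg.2 c1)
    have b6 := mul_le_mul_of_nonneg_left (b2.trans (show _ ≤ 3 * e by nlinarith [r.2])) c0
    nlinarith [mul_nonneg e0 m, mul_nonneg (sub_nonneg.2 c1) e0]

theorem glu_r (hx : x ∈ Om D) : |(glu R a α x).2.1 - x.2.1| ≤ e * (1 + max 0 (x.2.1 - R)) := by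
  have e0 := h.box.e0
  have m := le_max_left 0 (x.2.1 - R)
  have f : R ≤ x.2.1 → |(far R a α x).2.1 - x.2.1| ≤ e * (1 + max 0 (x.2.1 - R)) := fun r => by
    have := h.rad_b (k.mem hx r)
    rwa [abs_of_nonneg (sub_nonneg.2 r), ← max_eq_right (sub_nonneg.2 r),
      ← show (far R a α x).2.1 = rad R a α x by simp [far, rad, er]] at this
  rcases three R x with r | r | r
  · rw [glu_near r.le]
    exact (h.box.r' (mem_cut hx (by linarith))).trans (by nlinarith)
  · rw [glu_far r.le]; exact f (by linarith)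
  · obtain ⟨c0, c1⟩ := chi_mem R x
    have h1 := abs_le.1 ((h.box.r' (mem_cut hx (show x.2.1 < R + 1 / 2 by linarith [r.2]))).trans
      (show e ≤ e * (1 + max 0 (x.2.1 - R)) by nlinarith))
    have h2 := abs_le.1 (f r.1)
    simp only [glu, Prod.snd_add, Prod.fst_add, Prod.smul_snd, Prod.smul_fst, Prod.snd_sub,
      Prod.fst_sub, smul_eq_mul]
    exact abs_le.2 ⟨by nlinarith, by nlinarith⟩

theorem glu_xi (hx : x ∈ Om D) (n : ‖x.2.2‖ = 1) : ‖(glu R a α x).2.2 - x.2.2‖ ≤ e := by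
  have f : R ≤ x.2.1 → ‖(far R a α x).2.2 - x.2.2‖ ≤ e := fun r => by
    simpa [far, er, anc] using h.box.xi _ (anc_mem (k.mem hx r)) n
  rcases three R x with r | r | r
  · rw [glu_near r.le]; exact h.box.xi x (mem_cut hx (by linarith)) n
  · rw [glu_far r.le]; exact f (by linarith)
  · obtain ⟨c0, c1⟩ := chi_mem R x
    have h1 := h.box.xi x (mem_cut hx (show x.2.1 < R + 1 / 2 by linarith [r.2])) n
    rw [show (glu R a α x).2.2 - x.2.2 = (1 - chi R x) • ((a x).2.2 - x.2.2) +
      chi R x • ((far R a α x).2.2 - x.2.2) by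
        simp only [glu, Prod.snd_add, Prod.smul_snd, Prod.snd_sub]; module]
    refine (norm_add_le _ _).trans ?_
    rw [norm_smul, norm_smul, Real.norm_of_nonneg c0, Real.norm_of_nonneg (sub_nonneg.2 c1)]
    nlinarith [mul_le_mul_of_nonneg_left h1 (sub_nonneg.2 c1),
      mul_le_mul_of_nonneg_left (f r.1) c0]

/-- On r < Rs the chart is C1 close to the identity. -/
theorem glu_box {c : ℝ} (hR : R ≤ Rs) (hc : e * (3 + 2 * kc + (Rs - R)) ≤ c) (c8 : c ≤ 1 / 8) :
    Box (cut D Rs) (glu R a α) 1 c c := by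
  have e0 := h.box.e0
  have k1 := kc_ge
  have m : ∀ x ∈ Om (cut D Rs), max 0 (x.2.1 - R) ≤ Rs - R := fun x hx =>
    max_le (sub_nonneg.2 hR) (by linarith [show x.2.1 < Rs from hx.1.2])
  have c0 : e ≤ c := by nlinarith
  exact ⟨cut_open k.op, fun x hx => h.glu_sm k (of_cut hx),
    fun x hx z hz => h.glu_eqv k (of_cut hx) hz,
    fun x hx n => (h.glu_d k (of_cut hx) n).trans (by nlinarith [m x hx]),
    fun x hx _ => (h.glu_r k (of_cut hx)).trans (by nlinarith [m x hx]),
    fun x hx n => (h.glu_xi k (of_cut hx) n).trans c0, h.box.hl, e0.trans c0, c8, e0.trans c0, c8⟩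

theorem r_low (hx : x ∈ Om D) (r : R ≤ x.2.1) :
    R - e + (1 - e) * (x.2.1 - R) ≤ (glu R a α x).2.1 := by
  have := (abs_le.1 (h.glu_r k hx)).1
  rw [max_eq_right (sub_nonneg.2 r)] at this
  linarith

/-- **The chart.** -/
theorem glu_cht {c : ℝ} (hR : R + 2 ≤ Rs) (hc : e * (3 + 2 * kc + (Rs - R)) ≤ c)
    (cL : (4 + 2 * L) * c < 1 / 2) (p : ∀ q ∈ D, c < q.2) : Cht (Om D) (glu R a α) := by
  have c8 : c ≤ 1 / 8 := by
    nlinarith [k.L0, h.box.e0, kc_ge, mul_nonneg h.box.e0 (show 0 ≤ 3 + 2 * kc + (Rs - R) by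
      linarith [kc_ge])]
  have b := h.glu_box k (by linarith) hc c8
  have n := b.cht (k.walk le_rfl) (by linarith [k.L0]) (by linarith) fun q hq => p q hq.1
  have f := h.far_dif k
  have he := h.box.he
  have e0 := h.box.e0
  have big : ∀ x ∈ Om D, ∀ y ∈ Om D, x.2.1 ≤ R + 1 / 4 → Rs ≤ y.2.1 →
      glu R a α x ≠ glu R a α y := fun x hx y hy r r' e1 => by
    have h1 := (abs_le.1 (b.r' (mem_cut hx (by linarith)))).2
    have h2 := h.r_low k hy (by linarith)
    rw [e1] at h1
    nlinarith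
  refine ⟨⟨cn_om k.op fun q hq => b.e0.trans_lt (p q hq), fun x => h.glu_sm k,
    fun x hx z => h.glu_eqv k hx, fun x hx => ?_⟩, ⟨om_open k.op, fun x => h.glu_sm k,
    fun x hx => ?_, fun x hx y hy e1 => ?_⟩, fun x hx => ?_⟩
  · rcases lt_or_ge x.2.1 Rs with r | r
    · exact b.xi_ne (mem_cut hx r)
    · rw [glu_far (by linarith)]
      simpa [far, er] using h.box.xi_ne (anc_mem (k.mem hx (by linarith)))
  · rcases lt_or_ge x.2.1 Rs with r | r
    · exact b.fd_inj (mem_cut hx r)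
    · rw [(ev_far (by linarith)).fderiv_eq]; exact f.fd x (k.mem hx (by linarith))
  · have ff : R + 1 / 4 ≤ x.2.1 → R + 1 / 4 ≤ y.2.1 → x = y := fun r r' =>
      f.inj (k.mem hx (by linarith)) (k.mem hy (by linarith)) (by rwa [glu_far r, glu_far r'] at e1)
    rcases lt_or_ge x.2.1 Rs with r | r <;> rcases lt_or_ge y.2.1 Rs with r' | r'
    · exact n.dif.inj (mem_cut hx r) (mem_cut hy r') e1
    · exact (le_total x.2.1 (R + 1 / 4)).elim (fun j => (big x hx y hy j r' e1).elim)
        fun j => ff j (by linarith)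
    · exact (le_total y.2.1 (R + 1 / 4)).elim (fun j => (big y hy x hx j r e1.symm).elim)
        fun j => ff (by linarith) j
    · exact ff (by linarith) (by linarith)
  · rcases lt_or_ge x.2.1 Rs with r | r
    · exact n.pos x (mem_cut hx r)
    · have h1 := h.r_low k hx (by linarith)
      have h2 := p _ (k.ray _ hx.1 R ⟨le_rfl, by linarith⟩)
      nlinarith [b.e0]

end Lb

end Vale.Agent.P354CQ
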