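import Vale.Agent.P354XO.Cht
import Vale.Agent.P354XO.Walk

/-!
The chart along the rays. The coordinates are (u, r, xi), the rays are the lines in the direction
of r. The labels are the values of a near chart a on the cylinder r = R, and the new radius is an
affine function on every ray.
-/

open scoped ContDiff
open Set Filter Topology Metric
open Function (invFunOn Injective)

noncomputable section

namespace Vale.Agent.P354CQ

open Vale.Agent.P354XG (E6)
open Vale.Agent.P354XO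

/-- The radial direction, the projection along it, and the anchor. -/
def er : E6 := (0, 1, 0)
def hz : E6 →L[ℝ] E6 := (ContinuousLinearMap.id ℝ ℝ).prodMap
  ((0 : ℝ →L[ℝ] ℝ).prodMap (ContinuousLinearMap.id ℝ _))
def dR : E6 →L[ℝ] ℝ := (ContinuousLinearMap.fst ℝ ℝ _).comp (.snd ℝ ℝ _)
def anc (R : ℝ) (x : E6) : E6 := (x.1, R, x.2.2)

theorem hz_ap (x : E6) : hz x = (x.1, 0, x.2.2) := rfl
theorem dR_ap (x : E6) : dR x = x.2.1 := rfl
theorem hz_add (x : E6) : hz x + x.2.1 • er = x := by simp [hz_ap, er]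
theorem anc_eq (R : ℝ) (x : E6) : anc R x = hz x + R • er := by simp [hz_ap, er, anc]
theorem norm_er : ‖er‖ = 1 := by simp [er, Prod.norm_def]
theorem norm_hz (x : E6) : ‖hz x‖ ≤ ‖x‖ := by
  rw [hz_ap, norm_e6, norm_e6]
  exact max_le_max le_rfl (max_le_max (by simp) le_rfl)
theorem abs_r (x : E6) : |x.2.1| ≤ ‖x‖ := (norm_fst_le x.2).trans (norm_snd_le x)
theorem sc_er (z : ℂ) : sc z er = er := by simp [sc_ap, er]
theorem anc_d (R : ℝ) (x : E6) : HasFDerivAt (anc R) hz x := by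
  rw [funext (anc_eq R)]; exact hz.hasFDerivAt.add_const _
theorem anc_sm (R : ℝ) : ContDiff ℝ ∞ (anc R) := by
  rw [funext (anc_eq R)]; exact hz.contDiff.add contDiff_const
theorem dg_one : dg 1 = 1 := ContinuousLinearMap.ext fun w => by simp [dg_ap]

/-- The part r < ρ, and the rays which meet D on the cylinder. -/
def cut (D : Set (ℝ × ℝ)) (ρ : ℝ) : Set (ℝ × ℝ) := {p ∈ D | p.2 < ρ}
def Wd (D : Set (ℝ × ℝ)) (R : ℝ) : Set (ℝ × ℝ) := {p | (p.1, R) ∈ D}

/-- The region below the lid. -/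
structure Dk (D : Set (ℝ × ℝ)) (R Rs L : ℝ) : Prop where
  op : IsOpen D
  down : ∀ p ∈ D, ∀ u ≤ p.1, (u, p.2) ∈ D
  ray : ∀ p ∈ D, ∀ r ∈ Icc R p.2, (p.1, r) ∈ D
  lip : ∀ p ∈ D, ∀ r ∈ Icc p.2 Rs, (p.1 - L * (r - p.2), r) ∈ D
  L0 : 0 ≤ L

variable {D : Set (ℝ × ℝ)} {R Rs L e ρ d : ℝ} {w : ℝ → ℝ} {a : E6 → E6} {α : E6 → ℝ} {x y : E6}

theorem cut_open (h : IsOpen D) : IsOpen (cut D ρ) :=
  h.inter (isOpen_lt continuous_snd continuous_const)

theorem Dk.wop (k : Dk D R Rs L) : IsOpen (Wd D R) :=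
  k.op.preimage (by fun_prop : Continuous fun p : ℝ × ℝ => (p.1, R))

theorem Dk.wcv (k : Dk D R Rs L) : Convex ℝ (Wd D R) := fun p hp q hq s t hs ht st => by
  have m := Convex.combo_le_max p.1 q.1 hs ht st
  rcases le_total p.1 q.1 with h | h
  · exact k.down _ hq _ (m.trans_eq (max_eq_right h))
  · exact k.down _ hp _ (m.trans_eq (max_eq_left h))

theorem Dk.walk (k : Dk D R Rs L) (h : ρ ≤ Rs) : Walk (1 + 2 * L + 1) d (cut D ρ) := by
  have key : ∀ p ∈ cut D ρ, ∀ q ∈ cut D ρ, p.2 ≤ q.2 → ∀ s ≤ p.1 - L * (q.2 - p.2),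
      ∀ r ∈ Icc p.2 q.2, (s, r) ∈ cut D ρ := fun p hp q hq _ s hs r hr =>
    ⟨k.down _ (k.lip p hp.1 r ⟨hr.1, hr.2.trans (hq.2.le.trans h)⟩) s
      (hs.trans (by nlinarith [k.L0, hr.2])), hr.2.trans_lt hq.2⟩
  refine walk_level fun p hp q hq _ => ⟨min p.1 q.1 - L * |p.2 - q.2|, ?_, ?_, ?_, ?_⟩
  all_goals have n := mul_nonneg k.L0 (abs_nonneg (p.2 - q.2))
  · rintro ⟨s, _⟩ ⟨m, rfl⟩
    rw [uIcc_of_ge (by linarith [min_le_left p.1 q.1])] at m
    exact ⟨k.down p hp.1 s m.2, hp.2⟩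
  · rintro ⟨_, r⟩ ⟨rfl, m⟩
    rcases le_total p.2 q.2 with h | h
    · refine key p hp q hq h _ ?_ r (by rwa [uIcc_of_le h] at m)
      rw [abs_sub_comm, abs_of_nonneg (sub_nonneg.2 h)]; linarith [min_le_left p.1 q.1]
    · refine key q hq p hp h _ ?_ r (by rwa [uIcc_of_ge h] at m)
      rw [abs_of_nonneg (sub_nonneg.2 h)]; linarith [min_le_right p.1 q.1]
  · rintro ⟨s, _⟩ ⟨m, rfl⟩
    rw [uIcc_of_le (by linarith [min_le_right p.1 q.1])] at m
    exact ⟨k.down q hq.1 s m.2, hq.2⟩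
  · have h1 : |p.1 - q.1| ≤ ‖p - q‖ := norm_fst_le (p - q)
    have h2 := mul_le_mul_of_nonneg_left (show |p.2 - q.2| ≤ ‖p - q‖ from norm_snd_le (p - q)) k.L0
    rw [abs_of_nonneg (a := p.1 - _) (by linarith [min_le_left p.1 q.1]),
      abs_of_nonpos (a := _ - q.1) (by linarith [min_le_right p.1 q.1])]
    rcases le_total p.1 q.1 with h | h
    · rw [min_eq_left h]; linarith [neg_abs_le (p.1 - q.1)]
    · rw [min_eq_right h]; linarith [le_abs_self (p.1 - q.1)]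

/-- The labels, the reparametrisation of the rays, and the far chart. -/
def lab (R : ℝ) (a : E6 → E6) (x : E6) : E6 := hz (a (anc R x)) + x.2.1 • er
def rad (R : ℝ) (a : E6 → E6) (α : E6 → ℝ) (x : E6) : ℝ := (a (anc R x)).2.1 + α x * (x.2.1 - R)
def far (R : ℝ) (a : E6 → E6) (α : E6 → ℝ) (x : E6) : E6 :=
  a (anc R x) + (α x * (x.2.1 - R)) • er

theorem far_eq : far R a α x = lab R a (anc (rad R a α x) x) := by
  ext <;> simp [far, lab, rad, anc, er, hz_ap]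

/-- The near chart and the factor α of the affine parameter. -/
structure Lb (D : Set (ℝ × ℝ)) (R e : ℝ) (w : ℝ → ℝ) (a : E6 → E6) (α : E6 → ℝ) : Prop where
  box : Box (cut D (R + 1 / 2)) a 1 e e
  ind : ∀ x, α (anc R x) = α x
  sm : ∀ x ∈ Om (Wd D R), ContDiffAt ℝ ∞ α x
  hom : ∀ x ∈ Om (Wd D R), ∀ z ≠ 0, α (sc z x) = α x
  one : ∀ x ∈ Om (Wd D R), |α x - 1| ≤ e
  dα : ∀ x ∈ Om (Wd D R), ‖x.2.2‖ = 1 → ‖fderiv ℝ α x‖ ≤ e * w x.1
  w1 : ∀ u, w u ≤ 1

theorem anc_mem (hx : x ∈ Om (Wd D R)) : anc R x ∈ Om (cut D (R + 1 / 2)) :=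
  ⟨⟨hx.1, show R < R + 1 / 2 by linarith⟩, hx.2⟩

theorem Dk.mem (k : Dk D R Rs L) (hx : x ∈ Om D) (r : R ≤ x.2.1) : x ∈ Om (Wd D R) :=
  ⟨k.ray _ hx.1 R ⟨le_rfl, r⟩, hx.2⟩

namespace Lb
variable (h : Lb D R e w a α)
include h

theorem pos (hx : x ∈ Om (Wd D R)) : 7 / 8 ≤ α x := by
  linarith [(abs_le.1 (h.one x hx)).1, h.box.he]

theorem ind' (r : ℝ) : α (anc r x) = α x := (h.ind _).symm.trans (h.ind x)

theorem an_d (hx : x ∈ Om (Wd D R)) :
    HasFDerivAt (fun x => a (anc R x)) ((fderiv ℝ a (anc R x)).comp hz) x :=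
  (h.box.df (anc_mem hx)).hasFDerivAt.comp x (anc_d R x)

theorem an_sm (hx : x ∈ Om (Wd D R)) : ContDiffAt ℝ ∞ (fun x => a (anc R x)) x :=
  (h.box.sm _ (anc_mem hx)).comp x (anc_sm R).contDiffAt

theorem an_b (hx : x ∈ Om (Wd D R)) (n : ‖x.2.2‖ = 1) (v : E6) :
    ‖fderiv ℝ a (anc R x) (hz v) - hz v‖ ≤ e * ‖v‖ := by
  have := (fderiv ℝ a (anc R x) - dg 1).le_of_opNorm_le (h.box.d _ (anc_mem hx) n) (hz v)
  rw [dg_one] at this
  exact this.trans (mul_le_mul_of_nonneg_left (norm_hz v) h.box.e0)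

theorem lab_d (hx : x ∈ Om (Wd D R)) : HasFDerivAt (lab R a)
    (hz.comp ((fderiv ℝ a (anc R x)).comp hz) + dR.smulRight er) x :=
  (hz.hasFDerivAt.comp x (h.an_d hx)).add (dR.hasFDerivAt.smul_const er)

theorem lab_box (k : Dk D R Rs L) : Box (Wd D R) (lab R a) 1 e e where
  op := k.wop
  sm x hx := (hz.contDiff.contDiffAt.comp x (h.an_sm hx)).add
    (dR.contDiff.contDiffAt.smul contDiffAt_const)
  eqv x hx z hz := by
    have : a (anc R (sc z x)) = sc z (a (anc R x)) := h.box.eqv _ (anc_mem hx) z hz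
    rw [lab, this]
    simp [lab, sc_ap, hz_ap, er]
  d x hx n := by
    rw [(h.lab_d hx).fderiv, dg_one]
    refine ContinuousLinearMap.opNorm_le_bound _ h.box.e0 fun v => ?_
    refine le_trans (le_of_eq ?_) ((norm_hz _).trans (h.an_b hx n v))
    congr 1
    ext <;> simp [hz_ap, er, dR_ap]
  r x _ _ := by simpa [lab, hz_ap, er] using h.box.e0
  xi x hx n := by simpa [lab, hz_ap, er, anc] using h.box.xi _ (anc_mem hx) n
  hl := h.box.hl
  c0 := h.box.c0
  hc := h.box.hc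
  e0 := h.box.e0
  he := h.box.he

theorem lab_dif (k : Dk D R Rs L) : Dif (Om (Wd D R)) (lab R a) :=
  (h.lab_box k).dif (walk_convex k.wcv) zero_le_one (by linarith [h.box.he])

theorem rad_sm (hx : x ∈ Om (Wd D R)) : ContDiffAt ℝ ∞ (rad R a α) x :=
  (h.an_sm hx).snd.fst.add ((h.sm x hx).mul (contDiffAt_snd.fst.sub contDiffAt_const))

theorem rad_b (hx : x ∈ Om (Wd D R)) : |rad R a α x - x.2.1| ≤ e * (1 + |x.2.1 - R|) := by
  have h1 : |(a (anc R x)).2.1 - R| ≤ e := h.box.r' (anc_mem hx)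
  have h2 := mul_le_mul_of_nonneg_right (h.one x hx) (abs_nonneg (x.2.1 - R))
  rw [← abs_mul] at h2
  rw [show rad R a α x - x.2.1 = (a (anc R x)).2.1 - R + (α x - 1) * (x.2.1 - R) by rw [rad]; ring]
  linarith [abs_add_le ((a (anc R x)).2.1 - R) ((α x - 1) * (x.2.1 - R))]

theorem far_dif (k : Dk D R Rs L) : Dif (Om (Wd D R)) (far R a α) := by
  rw [show far R a α = _ from funext fun _ => far_eq]
  refine Dif.comp (a := fun x => anc (rad R a α x) x) (dif_of_left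
    (g := fun y => anc (R + (y.2.1 - (a (anc R y)).2.1) / α y) y) (om_open k.wop) (fun x hx =>
      contDiffAt_fst.prodMk ((h.rad_sm hx).prodMk contDiffAt_snd.snd)) (fun x hx => ?_)
    fun x hx => ?_) (h.lab_dif k) fun _ hx => hx
  · have hy : anc (rad R a α x) x ∈ Om (Wd D R) := hx
    exact contDiffAt_fst.prodMk ((contDiffAt_const.add ((contDiffAt_snd.fst.sub
      (h.an_sm hy).snd.fst).div (h.sm _ hy) (by linarith [h.pos hy]))).prodMk contDiffAt_snd.snd)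
  · have p : α x ≠ 0 := by linarith [h.pos hx] |> ne_of_gt
    rw [h.ind']
    refine Prod.ext rfl (Prod.ext ?_ rfl)
    simp only [anc, rad]
    field_simp
    ring

theorem far_eqv (hx : x ∈ Om (Wd D R)) {z : ℂ} (hz : z ≠ 0) :
    far R a α (sc z x) = sc z (far R a α x) := by
  have : a (anc R (sc z x)) = sc z (a (anc R x)) := h.box.eqv _ (anc_mem hx) z hz
  rw [far, far, this, h.hom x hx z hz, map_add, map_smul, sc_er]
  rfl

theorem far_d (hx : x ∈ Om (Wd D R)) : HasFDerivAt (far R a α) ((fderiv ℝ a (anc R x)).comp hz +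
    (α x • dR + (x.2.1 - R) • fderiv ℝ α x).smulRight er) x :=
  (h.an_d hx).add ((((h.sm x hx).differentiableAt (by simp)).hasFDerivAt.mul
    (dR.hasFDerivAt.sub_const R)).smul_const er)

theorem dα_er (hx : x ∈ Om (Wd D R)) : fderiv ℝ α x er = 0 := by
  have e1 : (fun y => α (anc R y)) = α := funext h.ind
  have := ((h.sm _ (show anc R x ∈ Om (Wd D R) from hx)).differentiableAt
    (by simp)).hasFDerivAt.comp x (anc_d R x)
  rw [← e1, show fderiv ℝ (fun y => α (anc R y)) x = _ from this.fderiv]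
  simp [hz_ap, er, show ((0, 0, 0) : E6) = 0 from rfl]

theorem far_er (hx : x ∈ Om (Wd D R)) : fderiv ℝ (far R a α) x er = α x • er := by
  rw [(h.far_d hx).fderiv]
  simp [h.dα_er hx, dR_ap, show hz er = 0 from rfl, show er.2.1 = 1 from rfl]

theorem far_b (hx : x ∈ Om (Wd D R)) (n : ‖x.2.2‖ = 1) :
    ‖fderiv ℝ (far R a α) x - dg 1‖ ≤ e * (2 + |x.2.1 - R|) := by
  have e0 := h.box.e0
  rw [(h.far_d hx).fderiv, dg_one]
  refine ContinuousLinearMap.opNorm_le_bound _ (by positivity) fun v => ?_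
  have h1 := h.an_b hx n v
  have h2 : |(α x - 1) * v.2.1| ≤ e * ‖v‖ := by
    rw [abs_mul]; exact mul_le_mul (h.one x hx) (abs_r v) (abs_nonneg _) e0
  have h3 : |(x.2.1 - R) * fderiv ℝ α x v| ≤ |x.2.1 - R| * (e * ‖v‖) := by
    rw [abs_mul]
    exact mul_le_mul_of_nonneg_left ((fderiv ℝ α x).le_of_opNorm_le
      ((h.dα x hx n).trans (mul_le_of_le_one_right e0 (h.w1 _))) v) (abs_nonneg _)
  have e1 : ((fderiv ℝ a (anc R x)).comp hz + (α x • dR + (x.2.1 - R) • fderiv ℝ α x).smulRight er -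
      1) v = (fderiv ℝ a (anc R x) (hz v) - hz v) +
        ((α x - 1) * v.2.1 + (x.2.1 - R) * fderiv ℝ α x v) • er := by
    conv_lhs => rw [sub_apply, one_apply_eq_self, ← hz_add v]
    simp only [hz_add, add_apply, ContinuousLinearMap.comp_apply,
      ContinuousLinearMap.smulRight_apply, smul_apply, smul_eq_mul, dR_ap]
    conv_lhs => rw [show ∀ u : E6, u - v = u - (hz v + v.2.1 • er) from fun u => by rw [hz_add]]
    module
  rw [e1]
  refine (norm_add_le _ _).trans ?_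
  rw [norm_smul, norm_er, mul_one, Real.norm_eq_abs]
  linarith [abs_add_le ((α x - 1) * v.2.1) ((x.2.1 - R) * fderiv ℝ α x v)]

end Lb

end Vale.Agent.P354CQ
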