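import Vale.Agent.P354CQ.Sol
import Vale.Agent.P354CQ.Defs

/-!
The constants of the construction of the chart, and the geometry of the regions.
-/

open scoped ContDiff
open Set Filter Topology Metric

noncomputable section

namespace Vale.Agent.P354CQ

open Vale.Agent.P354XG (E6)
open Vale.Agent.P354XD (nq)
open Vale.Agent.P354XO
open Vale.Agent.P354Z (Cs Est uu An Cone)

namespace Tz
variable {r1 R1 Rs L c1 u u' r r' : ℝ} {f : ℝ → ℝ} {τ : ℝ × ℝ → ℝ} (h : Tz r1 R1 Rs L c1 f τ)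
include h

theorem df {p : ℝ × ℝ} (hp : r1 < p.2) : HasFDerivAt τ (fderiv ℝ τ p) p :=
  ((h.sm p hp).differentiableAt (by simp)).hasFDerivAt

theorem mono_u (hr : r1 < r) (k : u ≤ u') : τ (u, r) + (u' - u) ≤ τ (u', r) := by
  have d : ∀ s, HasDerivAt (fun s => τ (s, r)) (fderiv ℝ τ (s, r) (1, 0)) s := fun s =>
    (h.df (p := (s, r)) hr).comp_hasDerivAt s ((hasDerivAt_id s).prodMk (hasDerivAt_const s r))
  have := mul_sub_le_image_sub_of_le_deriv (fun s => (d s).differentiableAt) (C := 1)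
    (fun s => (d s).deriv ▸ (h.du (s, r) hr).1) k
  linarith

theorem mono_r (h1 : r1 < r) (hr : R1 + 1 ≤ r) (k : r ≤ r') :
    τ (u, r) + 3 / 2 * (r' - r) ≤ τ (u, r') := by
  have d : ∀ s ∈ Ici r, HasDerivAt (fun s => τ (u, s)) (fderiv ℝ τ (u, s) (0, 1)) s := fun s m =>
    (h.df (p := (u, s)) (h1.trans_le m)).comp_hasDerivAt s
      ((hasDerivAt_const s u).prodMk (hasDerivAt_id s))
  have := (convex_Ici r).mul_sub_le_image_sub_of_le_deriv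
    (fun s m => (d s m).continuousAt.continuousWithinAt)
    (fun s m => (d s (interior_subset m)).differentiableAt.differentiableWithinAt) (C := 3 / 2)
    (fun s m => (d s (interior_subset m)).deriv ▸ (h.dr (u, s) (hr.trans (interior_subset m))).1)
    r (mem_Ici.2 le_rfl) r' k k
  linarith

theorem cont : ContinuousOn τ {p | r1 < p.2} := fun p hp =>
  (h.sm p hp).continuousAt.continuousWithinAt

theorem dk {Lv : Set ℝ} {R : ℝ} (o : IsOpen Lv) (l : IsLowerSet Lv) (h1 : r1 < R) (hR : R1 + 1 ≤ R) :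
    Dk (Dv r1 τ Lv) R Rs L where
  op := h.cont.isOpen_inter_preimage (isOpen_lt continuous_const continuous_snd) o
  down p hp u k := ⟨hp.1, l (by linarith [h.mono_u hp.1 k]) hp.2⟩
  ray p hp r m := ⟨h1.trans_le m.1, l (by
    linarith [h.mono_r (u := p.1) (h1.trans_le m.1) (hR.trans m.1) m.2, m.2]) hp.2⟩
  lip p hp r m := ⟨hp.1.trans_le m.1, l (by
    rw [h.near _ (hp.1.trans_le m.1) m.2, h.near p hp.1 (m.1.trans m.2)]
    linarith [h.lip _ _ hp.1 m.1 m.2]) hp.2⟩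
  L0 := h.L0

omit h in
theorem fd {p : ℝ × ℝ} (s t : ℝ) :
    fderiv ℝ τ p (s, t) = s * fderiv ℝ τ p (1, 0) + t * fderiv ℝ τ p (0, 1) := by
  rw [← smul_eq_mul, ← smul_eq_mul, ← map_smul, ← map_smul, ← map_add]; simp

end Tz

/-- The constants: ti is the time up to which the near chart is the identity, k the size of the
chart on r < Rs, e the size of the near chart and w the decay of the derivative of alpha. -/
structure Kn where
  r1 : ℝ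
  L : ℝ
  c1 : ℝ
  ti : ℝ
  F : ℝ
  k : ℝ
  e : ℝ
  f : ℝ → ℝ
  w : ℝ → ℝ
  τ : ℝ × ℝ → ℝ

def Xc (c : Cs) : ℝ := c.c0 + 4 * c.M ^ 2 / c.r0 + 10

structure Nm (c : Cs) (n : Kn) : Prop where
  ok : c.Ok
  d0 : c.d0 = 1 / 100
  tz : Tz n.r1 c.R1 c.Rs n.L n.c1 n.f n.τ
  ek : n.e * (3 + 2 * kc + (c.Rs - Ra c)) ≤ n.k
  kL : (4 + 2 * n.L) * n.k * (c.Rs + 4) ≤ 1 / 8
  r1 : c.r1 + n.k ≤ n.r1
  r0 : n.r1 + 5 * n.k < c.r0
  uc : ∀ r ∈ Icc c.r1 (c.Rs + 1), ∀ s ∈ Icc c.r1 (c.Rs + 1), |r - s| ≤ n.k →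
    bb c r - bb c s ≤ 1 / 4
  ti : ∀ r ≥ c.r1, bb c r ≤ n.ti
  t0 : 0 ≤ n.ti
  F1 : ∀ r ∈ Icc (c.r0 - 5 * n.k) (c.R2 + 1), n.f r ≤ n.F
  F2 : ∀ r ∈ Icc (c.Rs - 3) c.Rs, n.F + 2 * Xc c ≤ n.f r
  B1 : ∀ r ∈ Ioc n.r1 c.Rs, 2 * (n.F + 1 - n.f r) + Xc c ≤ c.B
  B2 : Xc c ≤ c.B
  B3 : ∀ r ∈ Ioc n.r1 c.Rs, 1 + 4 * c.M ^ 2 / c.r1 - c.B ≤ bb c r
  e1 : n.e ≤ 1 / 1000
  et : n.e * n.ti ≤ 1
  ew : ∀ u, n.e * n.w u ≤ n.c1 / 1000 * (|u| + c.R1) ^ (-(101 / 100) : ℝ)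
  cw : c.cw ≤ n.c1 / 1600

/-- The input of the construction. -/
structure Su (c : Cs) (n : Kn) (Lv : Set ℝ) (a : E6 → E6) (α : E6 → ℝ) : Prop where
  nm : Nm c n
  op : IsOpen Lv
  lo : IsLowerSet Lv
  lb : Lb (Dv n.r1 n.τ Lv) (Ra c) n.e n.w a α
  id : ∀ x : E6, x.1 ≤ n.ti → a x = x
  one : ∀ x : E6, x.1 ≤ -(2 * c.R1) → α x = 1

variable {c : Cs} {n : Kn} {Lv : Set ℝ} {a : E6 → E6} {α : E6 → ℝ} {x y : E6} {m : ℝ}

theorem ok_num (h : c.Ok) : 0 < c.r1 ∧ 0 < c.M ∧ c.r1 < c.r0 ∧ c.r0 < c.R1 ∧ 10 ≤ c.R1 := by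
  have M0 : 0 < c.M := (abs_nonneg _).trans_lt h.aM
  have s : √(c.M ^ 2 - c.a ^ 2) ≤ c.M := Real.sqrt_le_iff.2 ⟨M0.le, by nlinarith⟩
  have r := h.rp
  rw [P354BF.rp] at r
  exact ⟨by linarith [h.r1], M0, by linarith [h.r10, h.d], by linarith [h.R1, h.d], by
    linarith [h.R1]⟩

theorem bb_far (h : c.Ok) {r : ℝ} (k : c.R1 + 3 ≤ r) : bb c r = -r := by
  rw [bb, h.btf r k]; ring

theorem bb_cont (h : c.Ok) {r : ℝ} (k : 0 < r) : ContinuousAt (bb c) r :=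
  h.bts.continuous.continuousAt.add (continuousAt_const.div continuousAt_id k.ne')

theorem ki_ko (m : ℝ) (x : E6) : ki m (ko m x) = x := by simp [ki, ko]
theorem ko_ki (m : ℝ) (x : E6) : ko m (ki m x) = x := by simp [ki, ko]

theorem ki_d (h : x.2.1 ≠ 0) : HasFDerivAt (ki m) (1 + (m / x.2.1 ^ 2) • dR.smulRight (1, 0)) x := by
  have d := ((hasDerivAt_inv h).comp_hasFDerivAt x dR.hasFDerivAt).const_mul m
  refine ((hasFDerivAt_fst.sub d).prodMk hasFDerivAt_snd).congr_fderiv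
    (ContinuousLinearMap.ext fun v => ?_)
  ext <;> simp [dR_ap]
  ring

theorem ki_cht (m : ℝ) : Cht P6 (ki m) := by
  have o : IsOpen {p : ℝ × ℝ | 0 < p.2} := isOpen_lt continuous_const continuous_snd
  have s : ∀ x ∈ P6, ContDiffAt ℝ ∞ (ki m) x := fun x hx => (contDiffAt_fst.sub
    (contDiffAt_const.div contDiffAt_snd.fst (ne_of_gt hx.1))).prodMk contDiffAt_snd
  exact ⟨⟨cn_om o fun _ h => h, s, fun _ _ _ _ => rfl, fun _ h => h.2⟩,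
    dif_of_left (g := ko m) (om_open o) s (fun x hx => (contDiffAt_fst.add (contDiffAt_const.div
      contDiffAt_snd.fst (ne_of_gt hx.1))).prodMk contDiffAt_snd) fun x _ => ko_ki m x,
    fun _ h => h.1⟩

theorem ac_r : (ac c a α x).2 = (glu (Ra c) a α x).2 := rfl
theorem ac_uu : uu c.M (ac c a α x) = (glu (Ra c) a α x).1 := by simp [uu, ac, ki]
theorem ac_ab : Est.Ab c (ac c a α x) ↔ bb c (glu (Ra c) a α x).2.1 ≤ (glu (Ra c) a α x).1 := by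
  simp [Est.Ab, ac, ki, bb, le_sub_iff_add_le]
theorem fa_iff (h : c.Ok) : Est.Fa c y ↔ c.R1 + 3 ≤ y.2.1 ∧ Est.Ab c y :=
  and_congr_right fun k => by
    rw [Est.Ab, h.btf _ k, uu]
    constructor <;> intro _ <;> linarith

namespace Nm
variable (h : Nm c n) (e0 : 0 ≤ n.e)
include h

theorem rad : 10 ≤ c.R1 ∧ 10 * c.R1 ≤ c.R2 ∧ 10 * c.R2 ≤ c.Rs ∧ Ra c = c.R1 + 9 / 4 :=
  ⟨(ok_num h.ok).2.2.2.2, h.ok.R2, h.ok.Rs, rfl⟩

include e0

theorem k0 : n.e ≤ n.k ∧ n.e * (1 + (c.Rs - Ra c)) ≤ n.k := by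
  obtain ⟨a1, a2, a3, a4⟩ := h.rad
  have := h.ek
  have := kc_ge
  have := mul_nonneg e0 (show 0 ≤ c.Rs - Ra c by linarith)
  constructor <;> nlinarith

theorem k1 : 0 ≤ n.k ∧ (4 + 2 * n.L) * n.k ≤ 1 / 1000 ∧ n.k * (c.Rs + 4) ≤ 1 / 32 ∧
    n.k ≤ 1 / 1000 := by
  obtain ⟨a1, a2, a3, a4⟩ := h.rad
  have k0 := e0.trans (h.k0 e0).1
  have := h.kL
  have := mul_nonneg h.tz.L0 k0
  have := mul_nonneg this (show 0 ≤ c.Rs + 4 by linarith)
  refine ⟨k0, ?_, ?_, ?_⟩ <;> nlinarith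

end Nm

namespace Su
variable (h : Su c n Lv a α)
include h

theorem e0 : 0 ≤ n.e := h.lb.box.e0

theorem num : 0 < c.r1 ∧ c.r1 ≤ n.r1 ∧ n.r1 < c.r0 ∧ c.r0 < c.R1 := by
  obtain ⟨a1, -, -, a2, -⟩ := ok_num h.nm.ok
  have := (h.nm.k1 h.e0).1
  exact ⟨a1, by linarith [h.nm.r1], by linarith [h.nm.r0], a2⟩

theorem dk : Dk (Dv n.r1 n.τ Lv) (Ra c) c.Rs n.L := by
  obtain ⟨-, -, a1, a2⟩ := h.num
  exact h.nm.tz.dk h.op h.lo (by rw [Ra]; linarith) (by rw [Ra]; linarith)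

theorem box : Box (cut (Dv n.r1 n.τ Lv) c.Rs) (glu (Ra c) a α) 1 n.k n.k := by
  obtain ⟨a1, a2, a3, a4⟩ := h.nm.rad
  exact h.lb.glu_box h.dk (by linarith) h.nm.ek (by linarith [(h.nm.k1 h.e0).2.2.2])

theorem cht0 : Cht (Om (Dv n.r1 n.τ Lv)) (glu (Ra c) a α) := by
  obtain ⟨a1, a2, a3, a4⟩ := h.nm.rad
  exact h.lb.glu_cht h.dk (by linarith) h.nm.ek (by linarith [(h.nm.k1 h.e0).2.1])
    fun q hq => by linarith [hq.1, h.nm.r1, h.num.1]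

/-- **The chart.** -/
theorem cht : Cht (Om (Dv n.r1 n.τ Lv)) (ac c a α) :=
  h.cht0.comp (ki_cht _) fun x hx => ⟨h.cht0.pos x hx, h.cht0.eqv.ne x hx⟩

theorem op0 : IsOpen (D0 c (Dv n.r1 n.τ Lv)) := isOpen_iff_mem_nhds.2 fun p hp => by
  have k : 0 < p.2 := by linarith [hp.1.1, h.num.1, h.num.2.1]
  exact inter_mem (h.dk.op.mem_nhds hp.1) ((((bb_cont h.nm.ok k).comp continuousAt_snd).sub
    continuousAt_const).eventually_lt continuousAt_fst hp.2)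

theorem op1 : IsOpen (D1 c (Dv n.r1 n.τ Lv)) :=
  h.op0.inter (isOpen_lt continuous_snd continuous_const)
theorem op2 : IsOpen (D2 c (Dv n.r1 n.τ Lv)) :=
  h.op0.inter (isOpen_lt continuous_const continuous_snd)

/-- The images of cones over open subsets of D are cones. -/
theorem cone {D' : Set (ℝ × ℝ)} (o : IsOpen D') (s : D' ⊆ Dv n.r1 n.τ Lv) :
    Cone (ac c a α '' Om D') := by
  have := (h.cht.mono (cn_om o fun q hq => by linarith [(s hq).1, h.num.1, h.num.2.1])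
    fun x hx => ⟨s hx.1, hx.2⟩).cn
  exact ⟨this.op, this.pos, this.hom⟩

variable (hx : x ∈ Om (Dv n.r1 n.τ Lv))
include hx

theorem r_near (r : x.2.1 < c.Rs) : |(glu (Ra c) a α x).2.1 - x.2.1| ≤ n.k :=
  h.box.r' (mem_cut hx r)

theorem r_lt (r : (glu (Ra c) a α x).2.1 ≤ c.Rs - 1) : x.2.1 ≤ c.Rs - 1 / 2 := by
  obtain ⟨a1, a2, a3, a4⟩ := h.nm.rad
  have a5 := (h.nm.k1 h.e0).2.2.2
  have a6 := (h.nm.k0 h.e0).2
  by_contra k
  have := h.lb.r_low h.dk hx (by linarith)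
  nlinarith [h.nm.e1, h.e0]

theorem r_gt (r : c.R1 + 3 ≤ (glu (Ra c) a α x).2.1) : c.R1 + 11 / 4 ≤ x.2.1 := by
  obtain ⟨a1, a2, a3, a4⟩ := h.nm.rad
  by_contra k
  linarith [(abs_le.1 (h.r_near hx (by linarith))).2, (h.nm.k1 h.e0).2.2.2]

theorem r_two (r : Ra c ≤ x.2.1) :
    x.2.1 ≤ 2 * (glu (Ra c) a α x).2.1 ∧ (glu (Ra c) a α x).2.1 ≤ 2 * x.2.1 := by
  obtain ⟨a1, a2, a3, a4⟩ := h.nm.rad
  have := abs_le.1 (h.lb.glu_r h.dk hx)
  rw [max_eq_right (sub_nonneg.2 r)] at this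
  constructor <;> nlinarith [h.nm.e1, h.e0]

omit hx in
theorem early (t : x.1 ≤ -(2 * c.R1)) : glu (Ra c) a α x = x :=
  glu_id h.id (by linarith [h.nm.t0, h.nm.rad.1]) (h.one x t)

/-- The points above the bottom of the new chart. -/
theorem ab_low (b : Est.Ab c (ac c a α x)) : bb c x.2.1 - 1 / 4 ≤ x.1 := by
  obtain ⟨a1, a2, a3, a4⟩ := h.nm.rad
  have a5 := (h.nm.k1 h.e0).2.2.2
  have r1 : n.r1 < x.2.1 := hx.1.1
  rw [ac_ab] at b
  by_contra k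
  rcases lt_or_ge x.2.1 c.Rs with r | r
  · have k1 := h.r_near hx r
    have k2 := abs_le.1 k1
    rw [(glu_early h.id (by linarith [h.nm.ti x.2.1 (by linarith [h.num.2.1])])).1] at b
    rw [abs_sub_comm] at k1
    linarith [h.nm.uc x.2.1 ⟨by linarith [h.num.2.1], by linarith⟩ (glu (Ra c) a α x).2.1
      ⟨by linarith [h.nm.r1], by linarith⟩ k1]
  · rw [bb_far h.nm.ok (by linarith)] at k
    rw [h.early (by linarith), bb_far h.nm.ok (by linarith)] at b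
    linarith

theorem an_low (b : An (ac c a α x)) : ‖x.2.2‖ ∈ Icc (1 / 4 : ℝ) 2 := by
  have k := h.lb.glu_xi_le h.dk hx
  have e : ∀ y : E6, ‖y.2.2‖ ^ 2 ≤ nq y ∧ nq y ≤ 2 * ‖y.2.2‖ ^ 2 := fun y => by
    rw [nq, Complex.normSq_eq_norm_sq, Complex.normSq_eq_norm_sq, Prod.norm_def]
    have h1 := norm_nonneg y.2.2.1
    have h2 := norm_nonneg y.2.2.2
    rcases le_total ‖y.2.2.1‖ ‖y.2.2.2‖ with j | j
    · rw [max_eq_right j]; constructor <;> nlinarith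
    · rw [max_eq_left j]; constructor <;> nlinarith
  have e1 := e (ac c a α x)
  rw [ac_r] at e1
  have p := norm_nonneg x.2.2
  have q := norm_nonneg (glu (Ra c) a α x).2.2
  constructor <;> by_contra j <;> nlinarith [b.1, b.2]

end Su

end Vale.Agent.P354CQ
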