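import Vale.Agent.P354CQ.Shp

/-!
Compact sublevel sets, boxes in the image, and the lens.
-/

open scoped ContDiff
open Set Filter Topology Metric

noncomputable section

namespace Vale.Agent.P354CQ

open Vale.Agent.P354XG (E6)
open Vale.Agent.P354XD (nq)
open Vale.Agent.P354XO
open Vale.Agent.P354Z (Cs Est uu An Cone)

variable {c : Cs} {n : Kn} {Lv : Set ℝ} {a : E6 → E6} {α : E6 → ℝ} {x y : E6} {s : ℝ}

theorem an_closed : IsClosed {y : E6 | An y} := by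
  have : Continuous nq := by unfold nq; fun_prop
  exact (isClosed_le continuous_const this).inter (isClosed_le this continuous_const)

theorem ab_closed (h : c.Ok) : IsClosed {y : E6 | Est.Ab c y} :=
  isClosed_le (h.bts.continuous.comp continuous_snd.fst) continuous_fst

namespace Su
variable (h : Su c n Lv a α)
include h

theorem m0 : 0 ≤ 4 * c.M ^ 2 / c.r1 ∧ 0 ≤ 4 * c.M ^ 2 / c.r0 ∧ 11 ≤ Xc c := by
  obtain ⟨a1, a2, a3, -⟩ := h.num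
  have : 0 ≤ 4 * c.M ^ 2 / c.r0 := div_nonneg (by positivity) (by linarith)
  exact ⟨by positivity, this, by rw [Xc]; linarith [h.nm.ok.c0]⟩

/-- The general form of the compactness. -/
theorem cpt {P : Set E6} (p : IsClosed P) (hs : s ∈ Lv) {u0 u1 r r' : ℝ} (hr : n.r1 < r)
    (k : ∀ x ∈ Om (Dv n.r1 n.τ Lv), ac c a α x ∈ P → n.τ (x.1, x.2.1) ≤ s →
      x.1 ∈ Icc u0 u1 ∧ x.2.1 ∈ Icc r r' ∧ ‖x.2.2‖ ∈ Icc (1 / 4 : ℝ) 2) :
    IsCompact (ac c a α '' {x ∈ Om (Dv n.r1 n.τ Lv) | ac c a α x ∈ P ∧ n.τ (x.1, x.2.1) ≤ s}) := by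
  have q : IsCompact (Icc u0 u1 ×ˢ Icc r r' ×ˢ (closedBall (0 : ℂ × ℂ) 2 \ ball 0 (1 / 4))) :=
    isCompact_Icc.prod (isCompact_Icc.prod ((isCompact_closedBall _ _).diff isOpen_ball))
  have q1 := q.of_isClosed_subset (ContinuousOn.preimage_isClosed_of_isClosed
    (f := fun x : E6 => n.τ (x.1, x.2.1)) (h.nm.tz.cont.comp (by fun_prop)
      fun x hx => hr.trans_le hx.2.1.1) q.isClosed (isClosed_Iic (a := s))) inter_subset_left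
  have sub : ∀ x ∈ Icc u0 u1 ×ˢ Icc r r' ×ˢ (closedBall (0 : ℂ × ℂ) 2 \ ball 0 (1 / 4)) ∩
      (fun x : E6 => n.τ (x.1, x.2.1)) ⁻¹' Iic s, x ∈ Om (Dv n.r1 n.τ Lv) := fun x hx =>
    ⟨⟨hr.trans_le hx.1.2.1.1, h.lo hx.2 hs⟩, fun e => hx.1.2.2.2 (by rw [e]; simp)⟩
  have cn : ContinuousOn (ac c a α) (Om (Dv n.r1 n.τ Lv)) := fun x hx =>
    (h.cht.dif.sm x hx).continuousAt.continuousWithinAt
  have q2 := q1.of_isClosed_subset ((cn.mono sub).preimage_isClosed_of_isClosed q1.isClosed p)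
    inter_subset_left
  refine (congrArg IsCompact (congrArg _ (Set.ext fun x => ⟨fun j => ?_, fun j => ?_⟩))).mp
    (q2.image_of_continuousOn (cn.mono fun x hx => sub x hx.1))
  · exact ⟨sub x j.1, j.2, j.1.2⟩
  · obtain ⟨j1, j2, j3⟩ := k x j.1 j.2.1 j.2.2
    exact ⟨⟨⟨j1, j2, mem_closedBall_zero_iff.2 j3.2, fun e => (mem_ball_zero_iff.1 e).not_ge j3.1⟩,
      j.2.2⟩, j.2.1⟩

theorem cp1 (hs : s ∈ Lv) : IsCompact (ac c a α '' {x ∈ Om (Dv n.r1 n.τ Lv) | ac c a α x ∈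
    {y | An y ∧ Est.Ab c y ∧ y.2.1 ≤ c.Rs - 1} ∧ n.τ (x.1, x.2.1) ≤ s}) := by
  obtain ⟨r, hr, k⟩ := mem_nhdsGT_iff_exists_Ioo_subset.1
    (h.nm.tz.top.eventually_gt_atTop (s + c.B))
  refine h.cpt (an_closed.inter ((ab_closed h.nm.ok).inter
    (isClosed_le continuous_snd.fst continuous_const))) hs (u0 := -c.B)
    (u1 := s + c.B - n.F) (r' := c.Rs) hr fun x hx p t => ?_
  have a1 := h.r_lt hx p.2.2
  have a2 := h.ab_low hx p.2.1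
  have m : x.2.1 ∈ Ioc n.r1 c.Rs := ⟨hx.1.1, by linarith⟩
  have a3 := h.nm.B3 _ m
  have a4 := h.nm.B1 _ m
  obtain ⟨a5, -, a6⟩ := h.m0
  rw [h.nm.tz.near _ m.1 m.2] at t
  refine ⟨⟨by linarith, by linarith [h.nm.ok.B]⟩, ⟨not_lt.1 fun j => ?_, m.2⟩, h.an_low hx p.1⟩
  linarith [show s + c.B < n.f x.2.1 from k ⟨m.1, j⟩]

theorem tau_low {p : ℝ × ℝ} (r : c.R1 + 1 ≤ p.2) :
    p.1 + n.f (c.R1 + 1) + 3 / 2 * (p.2 - (c.R1 + 1)) ≤ n.τ p := by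
  obtain ⟨a1, a2, a3, a4⟩ := h.nm.rad
  obtain ⟨-, -, a5, a6⟩ := h.num
  have := h.nm.tz.mono_r (u := p.1) (by linarith) le_rfl r
  rwa [h.nm.tz.near _ (by linarith) (by linarith)] at this

theorem cp2 (hs : s ∈ Lv) : IsCompact (ac c a α '' {x ∈ Om (Dv n.r1 n.τ Lv) | ac c a α x ∈
    {y | An y ∧ c.R1 + 3 ≤ y.2.1 ∧ Est.Ab c y} ∧ n.τ (x.1, x.2.1) ≤ s}) := by
  obtain ⟨a1, a2, a3, a4⟩ := h.nm.rad
  obtain ⟨-, -, a5, a6⟩ := h.num
  obtain ⟨r, hr⟩ : ∃ r, r = max c.Rs (2 * (s - n.f (c.R1 + 1)) + 3 * c.R1 + 4) := ⟨_, rfl⟩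
  have b1 : c.Rs ≤ r := hr ▸ le_max_left _ _
  have b2 : _ ≤ r := hr ▸ le_max_right _ _
  refine h.cpt (an_closed.inter ((isClosed_le continuous_const continuous_snd.fst).inter
    (ab_closed h.nm.ok))) hs (u0 := -c.B - r) (u1 := s - n.f (c.R1 + 1)) (r := c.R1 + 11 / 4)
    (r' := r) (by linarith) fun x hx p t => ?_
  have b3 := h.r_gt hx p.2.1
  have b4 := h.ab_low hx p.2.2
  have b5 := h.tau_low (p := (x.1, x.2.1)) (by linarith)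
  have b6 := h.nm.ok.B
  dsimp only at b5
  rcases le_total x.2.1 c.Rs with j | j
  · exact ⟨⟨by linarith [h.nm.B3 _ ⟨hx.1.1, j⟩, h.m0.1], by linarith⟩, ⟨b3, j.trans b1⟩,
      h.an_low hx p.1⟩
  · rw [bb_far h.nm.ok (by linarith)] at b4
    exact ⟨⟨by linarith, by linarith⟩, ⟨b3, by linarith⟩, h.an_low hx p.1⟩

/-- The points of a box above the bottom are hit. -/
theorem hit {t : ℝ} (ny : y.2.2 ≠ 0) (b : Est.Ab c y) (r : c.r1 ≤ y.2.1)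
    (q : Iic (t + 4 * n.k) ×ˢ Icc (y.2.1 - 4 * n.k) (y.2.1 + 4 * n.k) ⊆
      cut (Dv n.r1 n.τ Lv) c.Rs) (u : uu c.M y ≤ (glu (Ra c) a α (t, y.2)).1) :
    ∃ x ∈ Om (D1 c (Dv n.r1 n.τ Lv)), ac c a α x = y ∧ x.1 ≤ t + 4 * n.k := by
  have b1 : bb c y.2.1 ≤ uu c.M y := by rw [bb, uu]; linarith [show c.bt y.2.1 ≤ y.1 from b]
  have b2 := h.nm.ti _ r
  have b3 : bb c y.2.1 ≤ t := not_lt.1 fun j => by
    rw [(glu_early h.id (x := (t, y.2)) (j.le.trans b2)).1] at u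
    linarith
  obtain ⟨x, hx, e, m⟩ := h.box.hit1 (y := ko (4 * c.M ^ 2) y) ny b3
    (Subset.trans (prod_mono_left Icc_subset_Iic_self) q)
    ((glu_early h.id (x := (bb c y.2.1, y.2)) b2).1.trans_le b1) u
  have e1 : ac c a α x = y := by rw [ac, Function.comp, e, ki_ko]
  exact ⟨x, ⟨⟨⟨hx.1.1, by linarith [h.ab_low (of_cut hx) (e1 ▸ b)]⟩, hx.1.2⟩, hx.2⟩, e1, m.2⟩

theorem low_mem (hs : s ∈ Lv) {p : ℝ × ℝ} (u : p.1 ≤ s - n.F - 1 + 4 * n.k)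
    (r : p.2 ∈ Icc (c.r0 - 5 * n.k) (c.R2 + 1)) : p ∈ cut (Dv n.r1 n.τ Lv) c.Rs ∧ n.τ p < s := by
  obtain ⟨a1, a2, a3, a4⟩ := h.nm.rad
  have b1 : n.r1 < p.2 := by linarith [h.nm.r0, r.1, (h.nm.k1 h.e0).1]
  have b2 : n.τ p < s := by
    rw [h.nm.tz.near p b1 (by linarith [r.2])]
    linarith [h.nm.F1 _ r, (h.nm.k1 h.e0).2.2.2]
  exact ⟨⟨⟨b1, h.lo b2.le hs⟩, by linarith [r.2]⟩, b2⟩

end Su

/-- The time of the level s. -/
def Ts (c : Cs) (n : Kn) (a : E6 → E6) (α : E6 → ℝ) (s : ℝ) : ℝ :=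
  (glu (Ra c) a α (s - n.F - 1, Ra c, 1, 1)).1 + 4 - Xc c

namespace Su
variable (h : Su c n Lv a α)
include h

theorem top_box (hs : s ∈ Lv) (ny : y.2.2 ≠ 0) (b : Est.Ab c y)
    (t : y.1 ≤ Ts c n a α s + c.c0 + 5) (r : c.r0 ≤ y.2.1) (r' : y.2.1 ≤ c.R2) :
    ∃ x ∈ Om (D1 c (Dv n.r1 n.τ Lv)), ac c a α x = y ∧ n.τ (x.1, x.2.1) < s := by
  obtain ⟨a1, a2, a3, a4⟩ := h.nm.rad
  obtain ⟨a5, a6, a7, a8⟩ := h.num
  obtain ⟨k0, -, k1, k2⟩ := h.nm.k1 h.e0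
  have o := h.box.osc (t := s - n.F - 1) (r := Ra c) (r' := y.2.1) (ξ := (1, 1)) (by simp) ny
    fun p hp => (h.low_mem hs (by linarith [show p.1 = _ from hp.1]) (uIcc_subset_Icc
      ⟨by linarith, by linarith⟩ ⟨by linarith, by linarith⟩ hp.2)).1
  have o1 : |y.2.1 - Ra c| ≤ c.Rs := abs_le.2 ⟨by linarith, by linarith⟩
  have o2 : 4 * c.M ^ 2 / y.2.1 ≤ 4 * c.M ^ 2 / c.r0 :=
    div_le_div_of_nonneg_left (by positivity) (by linarith) r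
  obtain ⟨x, hx, e, m⟩ := h.hit (t := s - n.F - 1) ny b (by linarith)
    (fun p hp => (h.low_mem hs hp.1 ⟨by linarith [hp.2.1], by linarith [hp.2.2]⟩).1) (by
      rw [Ts, Xc] at t
      rw [uu]
      nlinarith [(abs_le.1 o).1])
  have o3 := abs_le.1 (h.r_near ⟨hx.1.1.1, hx.2⟩ hx.1.2)
  rw [← ac_r, e] at o3
  exact ⟨x, hx, e, (h.low_mem hs (p := (x.1, x.2.1)) m ⟨by linarith, by linarith⟩).2⟩

theorem top_lens (hs : s ∈ Lv) (hx : x ∈ Om (Dv n.r1 n.τ Lv)) (r : x.2.1 < c.Rs)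
    (l : n.τ (x.1, x.2.1) < s) (t : Ts c n a α s ≤ (ac c a α x).1) :
    (ac c a α x).2.1 ≤ c.Rs - 2 ∧ (ac c a α x).1 ≤ Ts c n a α s + c.B := by
  obtain ⟨a1, a2, a3, a4⟩ := h.nm.rad
  obtain ⟨a5, a6, a7, a8⟩ := h.num
  obtain ⟨k0, k3, k1, k2⟩ := h.nm.k1 h.e0
  obtain ⟨-, -, X⟩ := h.m0
  have r1 : n.r1 < x.2.1 := hx.1.1
  have w := t_walk h.box (h.dk.walk (d := c.Rs) le_rfl) (p := (x.1, x.2.1))
    (q := (s - n.F - 1, Ra c)) (mem_cut hx r).1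
    (h.low_mem hs (by linarith) ⟨by linarith, by linarith⟩).1
    (abs_le.2 ⟨by linarith, by linarith⟩) hx.2 (ξ' := (1, 1)) (by simp)
  have n1 : ‖((x.1, x.2.1) : ℝ × ℝ) - (s - n.F - 1, Ra c)‖ ≤ |x.1 - (s - n.F - 1)| + c.Rs :=
    max_le (le_add_of_nonneg_right (by linarith)) (le_add_of_nonneg_of_le (abs_nonneg _)
      (abs_le.2 ⟨by simp only [Prod.snd_sub]; linarith, by simp only [Prod.snd_sub]; linarith⟩))
  have L0 := mul_nonneg h.nm.tz.L0 k0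
  have w1 := w.trans (add_le_add_left (mul_le_mul_of_nonneg_left n1 (by nlinarith)) _)
  have w2 : _ ≤ |x.1 - (s - n.F - 1)| / 1000 + 1 / 8 := w1.trans (by
    nlinarith [h.nm.kL, abs_nonneg (x.1 - (s - n.F - 1)), mul_nonneg k0 (show 0 ≤ c.Rs by linarith)])
  have u : (ac c a α x).1 ≤ (glu (Ra c) a α x).1 := by
    rw [← ac_uu, uu]
    exact le_add_of_nonneg_right (div_nonneg (by positivity) (h.cht.pos x hx).le)
  rw [h.nm.tz.near _ r1 r.le] at l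
  rw [Ts] at t ⊢
  have w3 := (abs_le.1 w2).2
  dsimp only at w3 l
  have o := abs_le.1 (h.r_near hx r)
  refine ⟨not_lt.1 fun j => ?_, ?_⟩
  · have := h.nm.F2 x.2.1 ⟨by rw [ac_r] at j; linarith, r.le⟩
    rw [abs_of_nonpos (by linarith)] at w3
    linarith
  · have := h.nm.B1 x.2.1 ⟨r1, r.le⟩
    have := h.nm.B2
    rcases le_total 0 (x.1 - (s - n.F - 1)) with j | j
    · rw [abs_of_nonneg j] at w3; linarith
    · rw [abs_of_nonpos j] at w3; linarith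

end Su

end Vale.Agent.P354CQ
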