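import Vale.Agent.P354CQ.Shq
import Vale.Agent.P354YK.Box

/-!
The lid function in the chart of the estimates, and the shape of the regions.
-/

open scoped ContDiff
open Set Filter Topology Metric
open Complex (I)
open Function (invFunOn)

noncomputable section

namespace Vale.Agent.P354CQ

open Vale.Agent.P354XG Vale.Agent.P354XD Vale.Agent.P354XI
open Vale.Agent.P354XO hiding Mp
open Vale.Agent.P354Z (Cs Est uu An Cone Base rv)
open Vale.Agent.P354YK (fv_d fv_z fv_R fv_gm)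

variable {c : Cs} {n : Kn} {Lv : Set ℝ} {a : E6 → E6} {α : E6 → ℝ} {x y : E6} {s : ℝ}
  {O : Set E6} {u : Sm (on O)} {E : Est}

/-- The generators of the rotations. -/
def omv (j : Fin 3) (x : E6) : E6 := (0, 0, ![(-(I / 2) * x.2.2.2, -(I / 2) * x.2.2.1),
  (-(1 / 2) * x.2.2.2, 1 / 2 * x.2.2.1), (-(I / 2) * x.2.2.1, I / 2 * x.2.2.2)] j)

theorem omv_norm (j : Fin 3) (x : E6) : ‖(omv j x).2.2‖ ≤ ‖x.2.2‖ / 2 := by
  have h1 := norm_fst_le x.2.2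
  have h2 := norm_snd_le x.2.2
  fin_cases j <;> refine max_le ?_ ?_ <;> simp [omv] <;> linarith

theorem fd_all (hO : IsOpen O) (u : Sm (on O)) (hx : x ∈ O) (v : E6) :
    fderiv ℝ (fv u) x v = ∑ k, zc k v * fv ((hp (on O)).d k u) x := by
  have e : v = v.1 • v1 0 + v.2.1 • v1 1 + v.2.2.1.re • v1 2 + v.2.2.1.im • v2 2 +
      v.2.2.2.re • v1 3 + v.2.2.2.im • v2 3 := by simp [v1, v2]
  conv_lhs => rw [e]
  simp only [map_add, map_smul, fv_d hO _ u hx, Fin.sum_univ_six, show v1 4 = v1 2 from rfl,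
    show v1 5 = v1 3 from rfl, show v2 4 = v2 2 from rfl, show v2 5 = v2 3 from rfl]
  apply Complex.ext <;> simp [d1, d2, zc] <;> ring

theorem fv_om (hO : IsOpen O) (j : Fin 3) (u : Sm (on O)) (hx : x ∈ O) :
    fv (P354XR.Om (hp (on O)) j u) x = fderiv ℝ (fv u) x (omv j x) := by
  have sb : ∀ f g : Sm (on O), fv (f - g) x = fv f x - fv g x := map_sub (evO ⟨x, hx⟩)
  rw [fd_all hO u hx, Fin.sum_univ_six]
  fin_cases j <;>
    simp [P354XR.Om, omv, fv_mul, fv_add, sb, fv_z _ hx, Geo.hf, P354XR.ii, fv_alg _ hx, zc,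
      Complex.conj_ofNat, fv_smul] <;> ring

theorem base_of (h : Cone O) (r : ∀ y ∈ O, ∃ t : ℝ, ∀ z ≠ 0, fv u (sc z y) = t) : Base u := by
  have k : ∀ y ∈ O, ∃ t : ℝ, fv u y = t ∧ ∀ z ≠ 0, fv u (sc z y) = t := fun y hy =>
    (r y hy).imp fun t k => ⟨by simpa [sc_ap] using k 1 one_ne_zero, k⟩
  refine ⟨ext_fv h.op fun y hy => ?_, ?_⟩
  · obtain ⟨t, e, -⟩ := k y hy
    rw [fv_cj, e, Complex.conj_ofReal]
  · have := (wt_of (u := u) (f := fun p => fv u p.2) (m := 0) (n := 0)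
      (on_of h.op fun x hx => (fv_in u hx).symm) (on_of h.op fun y hy w => by
        obtain ⟨t, e, e'⟩ := k y hy
        simp [e, e' _ (Complex.exp_ne_zero w)])).1
    rwa [map_zero, zero_mul] at this

variable (c n Lv a α) in
/-- The germ of the lid function. -/
def lid (O : Set E6) : Sm (on O) := gm (on O) fun p =>
  (n.τ ((invFunOn (ac c a α) (Om (Dv n.r1 n.τ Lv)) p.2).1,
    (invFunOn (ac c a α) (Om (Dv n.r1 n.τ Lv)) p.2).2.1) : ℂ)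

variable (c n Lv a α E) in
/-- The regions and the lid functions of the state. -/
structure Rg : Prop where
  lv : E.Lv = Lv
  co1 : Cone E.O1
  co2 : Cone E.O2
  s1 : E.O1 ⊆ ac c a α '' Om (D1 c (Dv n.r1 n.τ Lv))
  s2 : E.O2 ⊆ ac c a α '' Om (D2 c (Dv n.r1 n.τ Lv))
  m1 : ∀ x ∈ Om (D1 c (Dv n.r1 n.τ Lv)), Est.Ab c (ac c a α x) → ac c a α x ∈ E.O1
  m2 : ∀ x ∈ Om (D2 c (Dv n.r1 n.τ Lv)), Est.Fa c (ac c a α x) → ac c a α x ∈ E.O2
  sig : ∀ x ∈ Om (Dv n.r1 n.τ Lv), ac c a α x ∈ E.O1 → fv E.sig (ac c a α x) = n.τ (x.1, x.2.1)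
  tau : ∀ x ∈ Om (Dv n.r1 n.τ Lv), ac c a α x ∈ E.O2 → fv E.tau (ac c a α x) = n.τ (x.1, x.2.1)

theorem of1 {D : Set (ℝ × ℝ)} (h : x ∈ Om (D1 c D)) : x ∈ Om D := ⟨h.1.1.1, h.2⟩
theorem of2 {D : Set (ℝ × ℝ)} (h : x ∈ Om (D2 c D)) : x ∈ Om D := ⟨h.1.1.1, h.2⟩

namespace Su
variable (h : Su c n Lv a α)
include h

theorem fv_lid (o : IsOpen O) (s : O ⊆ ac c a α '' Om (Dv n.r1 n.τ Lv))
    (hx : x ∈ Om (Dv n.r1 n.τ Lv)) (m : ac c a α x ∈ O) :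
    fv (lid c n Lv a α O) (ac c a α x) = n.τ (x.1, x.2.1) := by
  refine (fv_gm o (f := fun y => (n.τ ((invFunOn (ac c a α) (Om (Dv n.r1 n.τ Lv)) y).1,
    (invFunOn (ac c a α) (Om (Dv n.r1 n.τ Lv)) y).2.1) : ℂ)) (fun y hy => ?_) m).trans
    (by rw [h.cht.dif.left hx])
  have k := h.cht.dif.sm_inv (s hy)
  exact Complex.ofRealCLM.contDiff.contDiffAt.comp y
    ((h.nm.tz.sm _ (Dif.mem (s hy)).1.1).comp y (k.fst.prodMk k.snd.fst))

theorem base (o : Cone O) (s : O ⊆ ac c a α '' Om (Dv n.r1 n.τ Lv))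
    (e : ∀ x ∈ Om (Dv n.r1 n.τ Lv), ac c a α x ∈ O → fv u (ac c a α x) = n.τ (x.1, x.2.1)) :
    Base u := base_of o fun y hy => by
  obtain ⟨x, hx, rfl⟩ := s hy
  refine ⟨n.τ (x.1, x.2.1), fun z hz => ?_⟩
  have k := h.cht.eqv.eqv x hx z hz
  rw [← k]
  exact e _ (om_sc hx hz) (k ▸ o.hom _ hy z hz)

/-- The differential of the chart in the far region. -/
theorem ac_d (hx : x ∈ Om (Dv n.r1 n.τ Lv)) (r : c.R1 + 5 / 2 < x.2.1) : HasFDerivAt (ac c a α)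
    ((1 + (4 * c.M ^ 2 / (ac c a α x).2.1 ^ 2) • dR.smulRight ((1, 0) : E6)).comp
      (fderiv ℝ (far (Ra c) a α) x)) x :=
  (ki_d (h.cht0.pos x hx).ne').comp x (((h.lb.far_dif h.dk).diff (h.dk.mem hx
    (by rw [Ra]; linarith))).congr_of_eventuallyEq (ev_far (by rw [Ra]; linarith)))

theorem chain (o : IsOpen O)
    (e : ∀ x ∈ Om (Dv n.r1 n.τ Lv), ac c a α x ∈ O → fv u (ac c a α x) = n.τ (x.1, x.2.1))
    (hx : x ∈ Om (Dv n.r1 n.τ Lv)) (r : c.R1 + 5 / 2 < x.2.1) (m : ac c a α x ∈ O) {v p : E6}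
    (hv : fderiv ℝ (far (Ra c) a α) x v = p) :
    fderiv ℝ (fv u) (ac c a α x) (p.1 + 4 * c.M ^ 2 / (ac c a α x).2.1 ^ 2 * p.2.1, p.2) =
      (v.1 * fderiv ℝ n.τ (x.1, x.2.1) (1, 0) + v.2.1 * fderiv ℝ n.τ (x.1, x.2.1) (0, 1) : ℝ) := by
  have d1 := h.ac_d hx r
  have d2 := ((fv_sm o u m).differentiableAt (by simp)).hasFDerivAt.comp x d1
  have d3 := Complex.ofRealCLM.hasFDerivAt.comp x ((h.nm.tz.df (p := (x.1, x.2.1)) hx.1.1).comp x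
    (hasFDerivAt_fst.prodMk dR.hasFDerivAt))
  have := DFunLike.congr_fun (d2.unique (d3.congr_of_eventuallyEq (by
    filter_upwards [h.cht.dif.op.mem_nhds hx, d1.continuousAt (o.mem_nhds m)] with y k1 k2
      using e y k1 k2))) v
  simp only [ContinuousLinearMap.comp_apply, hv] at this
  rw [← Tz.fd]
  refine Eq.trans (congrArg _ ?_) this
  ext <;> simp [dR_ap]

variable (o : Cone O)
  (e : ∀ x ∈ Om (Dv n.r1 n.τ Lv), ac c a α x ∈ O → fv u (ac c a α x) = n.τ (x.1, x.2.1))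
  (hx : x ∈ Om (Dv n.r1 n.τ Lv)) (r : c.R1 + 5 / 2 < x.2.1) (m : ac c a α x ∈ O)
include o e hx r m

theorem taR (M' a' : ℝ) : rv ((P354Z.kO O c.M M' a').R u) (ac c a α x) ∈ Icc (1 : ℝ) (9 / 5) := by
  have w := h.dk.mem hx (by rw [Ra]; linarith)
  have p := abs_le.1 (h.lb.one x w)
  have e1 := h.nm.e1
  have p0 : 0 < α x := by linarith
  have k := h.chain o.op e hx r m (v := (α x)⁻¹ • er) (p := er) (by
    rw [map_smul, h.lb.far_er w, inv_smul_smul₀ p0.ne'])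
  have t := h.nm.tz.dr (x.1, x.2.1) (by linarith)
  simp only [er, Prod.smul_mk, smul_eq_mul, mul_zero, mul_one, zero_add, zero_mul] at k
  rw [rv, fv_R o _ _ _ _ m, k, Complex.ofReal_re, inv_mul_eq_div]
  exact ⟨(le_div_iff₀ p0).2 (by linarith [t.1]), (div_le_iff₀ p0).2 (by linarith [t.2])⟩

theorem taO (j : Fin 3) :
    ‖fv (P354XR.Om (hp _) j u) (ac c a α x)‖ ≤ (ac c a α x).2.1 / 100 := by
  obtain ⟨a1, -, -, a4⟩ := h.nm.rad
  have w := h.dk.mem hx (by linarith)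
  have hz := nz_ne hx.2
  have p := norm_pos_iff.2 hx.2
  obtain ⟨v, hv, v1, v2⟩ := h.lb.solve h.dk w (u := sc (nz x)⁻¹ (omv j (ac c a α x))) rfl
  have n1 : ‖sc (nz x)⁻¹ (omv j (ac c a α x))‖ ≤ 9 / 16 := by
    refine max_le (by simp [sc_ap, omv]; norm_num) (max_le (by simp [sc_ap, omv]; norm_num) ?_)
    rw [sc_ap, norm_smul, norm_inv, norm_nz, inv_mul_le_iff₀ p]
    linarith [omv_norm j (ac c a α x), show ‖(ac c a α x).2.2‖ ≤ _ from (h.lb.glu_xi_le h.dk hx).2]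
  rw [sc_inv hz] at hv
  have k := h.chain o.op e hx r m hv
  rw [show (omv j (ac c a α x)).2.1 = 0 from rfl, mul_zero, add_zero] at k
  rw [fv_om o.op j u m, k, Complex.norm_real, Real.norm_eq_abs]
  obtain ⟨t1, t2, -⟩ := h.nm.tz.du (x.1, x.2.1) hx.1.1
  obtain ⟨t3, t4⟩ := h.nm.tz.dr (x.1, x.2.1) (by linarith)
  rw [show (sc (nz x)⁻¹ (omv j (ac c a α x))).1 = 0 from rfl, sub_zero] at v1
  rw [abs_of_nonneg (a := x.2.1 - _) (by linarith)] at v2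
  have e0 := h.e0
  have e1 := h.nm.e1
  have b0 := mul_le_mul_of_nonneg_left (h.lb.w1 x.1) (show 0 ≤ x.2.1 - Ra c by linarith)
  have b1 : |v.1| ≤ 9 / 8000 := by nlinarith
  have b2 : |v.2.1| ≤ 9 / 8000 * x.2.1 := v2.trans ((mul_le_mul_of_nonneg_right
    (mul_le_mul_of_nonneg_left (show _ ≤ x.2.1 by linarith) (by positivity)) (norm_nonneg _)).trans
      (by nlinarith [mul_le_mul e1 n1 (norm_nonneg _) (by norm_num)]))
  have b3 := (h.r_two hx (by linarith)).1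
  refine (abs_add_le _ _).trans ?_
  rw [abs_mul, abs_mul, abs_of_nonneg (zero_le_one.trans t1), abs_of_nonneg (a := fderiv ℝ n.τ _ _)
    (by linarith), ac_r]
  dsimp only at t2
  nlinarith [mul_le_mul b1 t2 (by linarith) (by norm_num), mul_le_mul b2 t4 (by linarith)
    (by linarith)]

theorem taT : 19 / 20 + c.cw * (ac c a α x).2.1 * (|uu c.M (ac c a α x)| + c.R1) ^ (-1 - c.d0) ≤
    rv ((hp (on O)).d 0 u) (ac c a α x) ∧
      rv ((hp (on O)).d 0 u) (ac c a α x) ≤ 2 + (ac c a α x).2.1 := by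
  obtain ⟨a1, -, -, a4⟩ := h.nm.rad
  have w := h.dk.mem hx (by linarith)
  obtain ⟨v, hv, v1, v2⟩ := h.lb.solve h.dk w (u := (1, 0)) rfl
  have k := h.chain o.op e hx r m hv
  have k1 : rv ((hp (on O)).d 0 u) (ac c a α x) = v.1 * fderiv ℝ n.τ (x.1, x.2.1) (1, 0) +
      v.2.1 * fderiv ℝ n.τ (x.1, x.2.1) (0, 1) := by
    rw [rv, fv_d o.op _ _ m, ← Complex.ofReal_re (_ + _), ← k]
    simp [d1, d2, P354XD.v1, sc_ap, Prod.mk_zero_zero]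
  obtain ⟨t1, t2, t5⟩ := h.nm.tz.du (x.1, x.2.1) hx.1.1
  obtain ⟨t3, t4⟩ := h.nm.tz.dr (x.1, x.2.1) (by linarith)
  rw [show ‖((1, 0) : E6)‖ = 1 by simp [Prod.norm_def], mul_one] at v1 v2
  rw [abs_of_nonneg (a := x.2.1 - _) (by linarith)] at v2
  have e0 := h.e0
  have e1 := h.nm.e1
  have c1 := h.nm.tz.c0
  obtain ⟨b3, b4⟩ := h.r_two hx (by linarith)
  obtain ⟨X, hX⟩ : ∃ X, X = (|x.1| + c.R1) ^ (-(101 / 100) : ℝ) := ⟨_, rfl⟩
  have X0 : 0 ≤ X := hX ▸ Real.rpow_nonneg (by positivity) _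
  have ew := h.nm.ew x.1
  dsimp only at t2 t5 v1
  rw [← hX] at t5 ew
  have v3 := abs_le.1 v1
  have r0 : 0 ≤ x.2.1 - Ra c := by linarith
  have v4 : |v.2.1| ≤ 2 / 1000 + 2 / 1000 * (n.c1 * (x.2.1 * X)) := by
    nlinarith [mul_le_mul_of_nonneg_left ew r0, mul_nonneg (mul_nonneg c1.le X0)
      (show 0 ≤ Ra c by linarith)]
  have v5 : |v.2.1| ≤ 2 / 1000 * x.2.1 := by
    nlinarith [mul_le_mul_of_nonneg_left (h.lb.w1 x.1) (mul_nonneg e0 r0)]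
  have u1 : (|(glu (Ra c) a α x).1| + c.R1) ^ (-1 - c.d0) ≤ 4 * X := by
    have u2 := h.lb.glu_abs h.dk h.id hx
    rw [abs_of_nonneg h.nm.t0] at u2
    have u3 : (|x.1| + c.R1) / 2 ≤ |(glu (Ra c) a α x).1| + c.R1 := by
      nlinarith [abs_sub_abs_le_abs_sub x.1 (glu (Ra c) a α x).1, abs_sub_comm x.1
        (glu (Ra c) a α x).1, h.nm.et, abs_nonneg x.1]
    rw [h.nm.d0, show (-1 - 1 / 100 : ℝ) = -(101 / 100) by norm_num]
    refine (Real.rpow_le_rpow_of_nonpos (by positivity) u3 (by norm_num)).trans ?_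
    rw [Real.div_rpow (by positivity) zero_le_two, ← hX, Real.rpow_neg zero_le_two, div_inv_eq_mul,
      mul_comm]
    refine mul_le_mul_of_nonneg_right ((Real.rpow_le_rpow_of_exponent_le one_le_two
      (show _ ≤ (2 : ℝ) by norm_num)).trans (by norm_num)) X0
  have u4 : c.cw * (glu (Ra c) a α x).2.1 * (|(glu (Ra c) a α x).1| + c.R1) ^ (-1 - c.d0) ≤
      n.c1 / 1600 * (2 * x.2.1) * (4 * X) :=
    mul_le_mul (mul_le_mul h.nm.cw b4 (by linarith) (by positivity)) u1 (by positivity)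
      (mul_nonneg (by positivity) (by linarith))
  rw [k1, ac_uu, ac_r]
  have Y0 : 0 ≤ n.c1 * (x.2.1 * X) := mul_nonneg c1.le (mul_nonneg (by linarith) X0)
  have v6 := abs_le.1 (show |v.2.1 * fderiv ℝ n.τ (x.1, x.2.1) (0, 1)| ≤ |v.2.1| * (7 / 4) by
    rw [abs_mul, abs_of_nonneg (a := fderiv ℝ n.τ _ _) (by linarith)]
    exact mul_le_mul_of_nonneg_left t4 (abs_nonneg _))
  constructor <;> nlinarith

end Su

/-- **The shape of the regions.** -/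
theorem shape (h : Su c n Lv a α) (g : Rg c n Lv a α E)
    (sg : ∀ x ∈ E.O1, 0 ≤ rv (E.G1.th E.sig) x ∧ 0 ≤ rv (E.G1.tp E.sig) x ∧
      ‖fv (E.G1.et E.sig) x‖ ^ 2 ≤ rv (E.G1.th E.sig) x * rv (E.G1.tp E.sig) x) : E.Shape c := by
  obtain ⟨a1, a2, a3, a4⟩ := h.nm.rad
  obtain ⟨k0, -, -, k2⟩ := h.nm.k1 h.e0
  have f1 : ∀ y ∈ E.O1, ∃ x ∈ Om (D1 c (Dv n.r1 n.τ Lv)), ac c a α x = y ∧
      rv E.sig y = n.τ (x.1, x.2.1) := fun y hy => by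
    obtain ⟨x, hx, rfl⟩ := g.s1 hy
    exact ⟨x, hx, rfl, by rw [rv, g.sig x (of1 hx) hy, Complex.ofReal_re]⟩
  have f2 : ∀ y ∈ E.O2, ∃ x ∈ Om (D2 c (Dv n.r1 n.τ Lv)), ac c a α x = y ∧
      rv E.tau y = n.τ (x.1, x.2.1) := fun y hy => by
    obtain ⟨x, hx, rfl⟩ := g.s2 hy
    exact ⟨x, hx, rfl, by rw [rv, g.tau x (of2 hx) hy, Complex.ofReal_re]⟩
  have m1 : ∀ x ∈ Om (Dv n.r1 n.τ Lv), Est.Ab c (ac c a α x) → (ac c a α x).2.1 ≤ c.Rs - 1 →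
      ac c a α x ∈ E.O1 := fun x hx b r =>
    g.m1 x ⟨⟨⟨hx.1, by linarith [h.ab_low hx b]⟩, by linarith [h.r_lt hx r]⟩, hx.2⟩ b
  have m2 : ∀ x ∈ Om (Dv n.r1 n.τ Lv), Est.Fa c (ac c a α x) → ac c a α x ∈ E.O2 := fun x hx b =>
    g.m2 x ⟨⟨⟨hx.1, by linarith [h.ab_low hx ((fa_iff h.nm.ok).1 b).2]⟩,
      by linarith [h.r_gt hx b.1]⟩, hx.2⟩ b
  refine ⟨g.co1, g.co2, fun y hy => ?_, fun y hy => ?_, g.lv ▸ h.op, g.lv ▸ h.lo,
    h.base g.co1 (g.s1.trans (image_mono fun _ => of1)) g.sig,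
    h.base g.co2 (g.s2.trans (image_mono fun _ => of2)) g.tau, fun y hy => ?_, fun y hy => ?_,
    fun s hs => ?_, fun s hs => ?_, fun y hy b => ?_, fun y hy b r => ?_,
    fun s hs => ⟨Ts c n a α s, fun y ny b t r r' => ?_, fun y hy l t => ?_⟩, sg,
    fun y hy _ => ?_, fun y hy _ => ?_, fun y hy _ j => ?_⟩
  · obtain ⟨x, hx, rfl, -⟩ := f1 y hy
    have r1 : n.r1 < x.2.1 := hx.1.1.1.1
    have r2 : x.2.1 < c.Rs := hx.1.2
    have b1 := abs_le.1 (h.r_near (of1 hx) r2)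
    have b2 : c.r1 ≤ (ac c a α x).2.1 := by rw [ac_r]; linarith [h.nm.r1]
    have b3 := h.lb.glu_ge h.dk h.id (of1 hx)
    have b4 : bb c x.2.1 - 1 ≤ min x.1 n.ti :=
      le_min hx.1.1.2.le (by linarith [h.nm.ti x.2.1 (by linarith [h.num.2.1])])
    have b5 : 4 * c.M ^ 2 / (ac c a α x).2.1 ≤ 4 * c.M ^ 2 / c.r1 :=
      div_le_div_of_nonneg_left (by positivity) h.num.1 b2
    rw [← ac_uu, uu] at b3
    exact ⟨b2, by rw [ac_r]; linarith, by linarith [h.nm.B3 _ ⟨r1, r2.le⟩]⟩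
  · obtain ⟨x, hx, rfl, -⟩ := f2 y hy
    have r1 : c.R1 + 5 / 2 < x.2.1 := hx.1.2
    have := h.lb.r_low h.dk (of2 hx) (by linarith)
    rw [ac_r]
    nlinarith [h.nm.e1]
  · obtain ⟨x, hx, -, e⟩ := f1 y hy
    exact e ▸ g.lv ▸ (of1 hx).1.2
  · obtain ⟨x, hx, -, e⟩ := f2 y hy
    exact e ▸ g.lv ▸ (of2 hx).1.2
  · refine (congrArg IsCompact (Set.ext fun y => ⟨?_, fun j => ?_⟩)).mp (h.cp1 (g.lv ▸ hs))
    · rintro ⟨x, ⟨hx, p, t⟩, rfl⟩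
      have := m1 x hx p.2.1 p.2.2
      exact ⟨this, p.1, by rwa [rv, g.sig x hx this, Complex.ofReal_re], p.2⟩
    · obtain ⟨x, hx, rfl, e⟩ := f1 y j.1
      exact ⟨x, ⟨of1 hx, ⟨j.2.1, j.2.2.2⟩, e ▸ j.2.2.1⟩, rfl⟩
  · refine (congrArg IsCompact (Set.ext fun y => ⟨?_, fun j => ?_⟩)).mp (h.cp2 (g.lv ▸ hs))
    · rintro ⟨x, ⟨hx, p, t⟩, rfl⟩
      have b := (fa_iff h.nm.ok).2 p.2
      have := m2 x hx b
      exact ⟨this, p.1, by rwa [rv, g.tau x hx this, Complex.ofReal_re], b⟩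
    · obtain ⟨x, hx, rfl, e⟩ := f2 y j.1
      exact ⟨x, ⟨of2 hx, ⟨j.2.1, (fa_iff h.nm.ok).1 j.2.2.2⟩, e ▸ j.2.2.1⟩, rfl⟩
  · obtain ⟨x, hx, rfl, e⟩ := f1 y hy
    have := m2 x (of1 hx) b
    exact ⟨this, by rw [e, rv, g.tau x (of1 hx) this, Complex.ofReal_re]⟩
  · obtain ⟨x, hx, rfl, -⟩ := f2 y hy
    exact m1 x (of2 hx) ((fa_iff h.nm.ok).1 b).2 r
  · obtain ⟨x, hx, rfl, l⟩ := h.top_box (g.lv ▸ hs) ny b t r r'
    have := g.m1 x hx b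
    exact ⟨this, by rwa [rv, g.sig x (of1 hx) this, Complex.ofReal_re]⟩
  · obtain ⟨x, hx, rfl, e⟩ := f1 y hy
    exact h.top_lens (g.lv ▸ hs) (of1 hx) hx.1.2 (e ▸ l) t
  · obtain ⟨x, hx, rfl, -⟩ := f2 y hy
    exact h.taR g.co2 g.tau (of2 hx) hx.1.2 hy _ _
  · obtain ⟨x, hx, rfl, -⟩ := f2 y hy
    exact h.taT g.co2 g.tau (of2 hx) hx.1.2 hy
  · obtain ⟨x, hx, rfl, -⟩ := f2 y hy
    exact h.taO g.co2 g.tau (of2 hx) hx.1.2 hy j

end Vale.Agent.P354CQ
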