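import Vale.Agent.P354CQ.Shr

/-!
The choice of the constants, the standard regions, and the surjectivity of the chart.
-/

open scoped ContDiff
open Set Filter Topology Metric

noncomputable section

namespace Vale.Agent.P354CQ

open Vale.Agent.P354XG (E6)
open Vale.Agent.P354XO
open Vale.Agent.P354Z

/-- The decay of the derivative of alpha. -/
def w0 (u : ℝ) : ℝ := (1 + |u|) ^ (-(7 / 5) : ℝ)

theorem w0_le (u : ℝ) : w0 u ≤ 1 :=
  Real.rpow_le_one_of_one_le_of_nonpos (le_add_of_nonneg_right (abs_nonneg _)) (by norm_num)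

theorem w0_bd {R : ℝ} (h : 1 ≤ R) (u : ℝ) :
    R ^ (-(101 / 100) : ℝ) * w0 u ≤ (|u| + R) ^ (-(101 / 100) : ℝ) := by
  have p := abs_nonneg u
  refine le_trans ?_ (Real.rpow_le_rpow_of_nonpos (by linarith)
    (show |u| + R ≤ R * (1 + |u|) by nlinarith) (by norm_num))
  rw [Real.mul_rpow (by linarith) (by linarith)]
  exact mul_le_mul_of_nonneg_left (Real.rpow_le_rpow_of_exponent_le (by linarith) (by norm_num))
    (Real.rpow_nonneg (by linarith) _)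

/-- **The constants**, in the order of CHART. -/
theorem nm_ex (z : Z1) (a : C1) (b : C2) (L : ℝ) (f : ℝ → ℝ) (h0 : 0 < a.r1) (h1 : a.r1 < z.r1)
    (h2 : z.r1 < a.r0) (hb : Continuous a.bt) : ∃ Rc, ∀ c : C3, Rc ≤ c.R2 → ∀ c1 τ,
    Tz z.r1 z.R1 c.Rs L c1 f τ → ∃ B0 F, ∀ d : C4, B0 ≤ d.B → d.cw ≤ c1 / 1600 →
      (cs z a b c d).Ok → ∀ ti ≥ a.t1 + 4 * z.M ^ 2 / a.r1, ∀ κ > 0, ∃ k ∈ Ioc 0 κ, ∃ e0 > 0,
        ∀ e ≤ e0, Nm (cs z a b c d) ⟨z.r1, L, c1, ti, F, k, e, f, w0, τ⟩ := by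
  obtain ⟨X, hX⟩ : ∃ X, X = b.c0 + 4 * z.M ^ 2 / a.r0 + 10 := ⟨_, rfl⟩
  obtain ⟨r', hr⟩ : ∃ r', r' = (z.r1 + a.r0) / 2 := ⟨_, rfl⟩
  obtain ⟨S, hS⟩ : ∃ S, S = f r' + L * (z.R1 + 1 - r') := ⟨_, rfl⟩
  refine ⟨|S - f (z.R1 + 1)| + 2 * |X| + 10, fun c hc c1 τ T => ?_⟩
  have cb : ContinuousOn (fun r => a.bt r + 4 * z.M ^ 2 / r) (Icc a.r1 (c.Rs + 1)) :=
    hb.continuousOn.add (continuousOn_const.div continuousOn_id fun r m => (h0.trans_le m.1).ne')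
  obtain ⟨C, hC⟩ := isCompact_Icc.exists_bound_of_continuousOn cb
  obtain ⟨δ, δ0, hδ⟩ := Metric.uniformContinuousOn_iff_le.1
    (isCompact_Icc.uniformContinuousOn_of_continuous cb) (1 / 4) (by norm_num)
  obtain ⟨F, hF⟩ : ∃ F, F = max S (f (c.R2 + 1)) := ⟨_, rfl⟩
  refine ⟨max (max X (2 * (F + 1 - (f c.Rs - L * (c.Rs - z.r1))) + X)) (1 + 4 * z.M ^ 2 / a.r1 + C),
    F, fun d hB cw ok ti ht κ κ0 => ?_⟩
  obtain ⟨-, -, -, a0, a1⟩ : _ ∧ _ ∧ _ ∧ a.r0 < z.R1 ∧ 10 ≤ z.R1 := ok_num ok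
  have a2 : 10 * z.R1 ≤ c.R2 := ok.R2
  have a3 : 10 * c.R2 ≤ c.Rs := ok.Rs
  have L0 := T.L0
  have c0 := T.c0
  have mo : ∀ r s, z.R1 + 1 ≤ r → r ≤ s → s ≤ c.Rs → f r + 3 / 2 * (s - r) ≤ f s :=
    fun r s j1 j2 j3 => by
      have := T.mono_r (u := 0) (by linarith) j1 j2
      rw [T.near _ (by linarith) (by linarith), T.near _ (by linarith) j3] at this
      linarith
  obtain ⟨k, k0, k1, k2, k3, k4, k5⟩ : ∃ k > 0, k ≤ κ ∧ k ≤ δ ∧ k ≤ z.r1 - a.r1 ∧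
      k ≤ (a.r0 - z.r1) / 10 ∧ k ≤ 1 / 8 / ((4 + 2 * L) * (c.Rs + 4)) := by
    have : 0 < 1 / 8 / ((4 + 2 * L) * (c.Rs + 4)) :=
      div_pos (by norm_num) (mul_pos (by linarith) (by linarith))
    refine ⟨min κ (min δ (min (z.r1 - a.r1) (min ((a.r0 - z.r1) / 10) _))),
      lt_min κ0 (lt_min δ0 (lt_min (by linarith) (lt_min (by linarith) this))), ?_⟩
    simp only [← le_min_iff, le_refl]
  have m0 : 0 ≤ 4 * z.M ^ 2 / a.r1 := by positivity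
  have t0 : 2 ≤ ti := by linarith [show 2 ≤ a.t1 from ok.t1]
  have q0 : 0 < 3 + 2 * kc + (c.Rs - (z.R1 + 9 / 4)) := by linarith [kc_ge]
  have q1 : 0 < z.R1 ^ (-(101 / 100) : ℝ) := Real.rpow_pos_of_pos (by linarith) _
  refine ⟨k, ⟨k0, k1⟩, min (k / (3 + 2 * kc + (c.Rs - (z.R1 + 9 / 4)))) (min (1 / 1000)
    (min ti⁻¹ (c1 / 1000 * z.R1 ^ (-(101 / 100) : ℝ)))), by positivity, fun e he => ?_⟩
  simp only [le_min_iff, max_le_iff] at he hB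
  have S1 : S ≤ F := hF ▸ le_max_left _ _
  have S2 : f (c.R2 + 1) ≤ F := hF ▸ le_max_right _ _
  refine ⟨ok, rfl, T, (le_div_iff₀ q0).1 he.1, ?_, show a.r1 + k ≤ z.r1 by linarith,
    show z.r1 + 5 * k < a.r0 by linarith, fun r m s m' j => ?_, fun r m => ?_,
    show 0 ≤ ti by linarith, fun r (m : r ∈ Icc (a.r0 - 5 * k) (c.R2 + 1)) => ?_,
    fun r (m : r ∈ Icc (c.Rs - 3) c.Rs) => ?_, fun r (m : r ∈ Ioc z.r1 c.Rs) => ?_,
    hX.ge.trans hB.1.1, fun r (m : r ∈ Ioc z.r1 c.Rs) => ?_, he.2.1, ?_, fun u => ?_, cw⟩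
  · have := (le_div_iff₀ (mul_pos (by linarith) (by linarith))).1 k5
    show (4 + 2 * L) * k * (c.Rs + 4) ≤ 1 / 8
    linarith
  · exact (le_abs_self _).trans (hδ r m s m' (j.trans k2))
  · have j1 : a.bt r + a.del * r ≤ a.t1 - 2 := ok.btt r m
    have j2 : 0 ≤ a.del * r := mul_nonneg ok.del.1.le (h0.le.trans m)
    have j3 : 4 * z.M ^ 2 / r ≤ 4 * z.M ^ 2 / a.r1 := div_le_div_of_nonneg_left (by positivity) h0 m
    show a.bt r + 4 * z.M ^ 2 / r ≤ ti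
    linarith
  · show f r ≤ F
    rcases le_total r (z.R1 + 1) with j | j
    · nlinarith [T.lip r' r (by linarith) (by linarith [m.1]) (by linarith)]
    · linarith [mo r _ j m.2 (by linarith), m.2]
  · show F + 2 * (b.c0 + 4 * z.M ^ 2 / a.r0 + 10) ≤ f r
    have j1 := mo (c.R2 + 1) r (by linarith) (by linarith [m.1]) m.2
    have j2 := mo (z.R1 + 1) (c.R2 + 1) le_rfl (by linarith) (by linarith)
    have j3 := le_abs_self (S - f (z.R1 + 1))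
    have j4 := le_abs_self X
    have j5 := abs_nonneg (S - f (z.R1 + 1))
    have j6 := abs_nonneg X
    rw [← hX, ← le_sub_iff_add_le, hF]
    exact max_le (by linarith [m.1]) (by linarith [m.1])
  · show 2 * (F + 1 - f r) + (b.c0 + 4 * z.M ^ 2 / a.r0 + 10) ≤ d.B
    nlinarith [T.lip r c.Rs m.1 m.2 le_rfl, m.1, hB.1.2]
  · show 1 + 4 * z.M ^ 2 / a.r1 - d.B ≤ a.bt r + 4 * z.M ^ 2 / r
    linarith [(abs_le.1 (hC r ⟨by linarith [m.1], by linarith [m.2]⟩)).1, hB.2]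
  · exact (le_mul_inv_iff₀ (by linarith)).1 (by simpa using he.2.2.1)
  · show e * w0 u ≤ c1 / 1000 * (|u| + z.R1) ^ (-(101 / 100) : ℝ)
    refine (mul_le_mul_of_nonneg_right he.2.2.2 (Real.rpow_nonneg (by positivity) _)).trans ?_
    rw [mul_assoc]
    exact mul_le_mul_of_nonneg_left (w0_bd (by linarith) u) (by positivity)

variable {c : Cs} {n : Kn} {Lv : Set ℝ} {a : E6 → E6} {α : E6 → ℝ} {x y : E6}

namespace Su

/-- The standard regions. -/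
theorem rg (h : Su c n Lv a α) {E : Est} (lv : E.Lv = Lv)
    (o1 : E.O1 = ac c a α '' Om (D1 c (Dv n.r1 n.τ Lv))) (co2 : Cone E.O2)
    (s2 : E.O2 ⊆ ac c a α '' Om (D2 c (Dv n.r1 n.τ Lv)))
    (m2 : ∀ x ∈ Om (D2 c (Dv n.r1 n.τ Lv)), Est.Fa c (ac c a α x) → ac c a α x ∈ E.O2)
    (e1 : E.sig = lid c n Lv a α E.O1) (e2 : E.tau = lid c n Lv a α E.O2) : Rg c n Lv a α E := by
  have co1 : Cone E.O1 := o1 ▸ h.cone h.op1 fun _ k => k.1.1
  exact ⟨lv, co1, co2, o1.le, s2, fun x hx _ => o1 ▸ mem_image_of_mem _ hx, m2,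
    fun x hx m => e1 ▸ h.fv_lid co1.op (o1.le.trans (image_mono fun _ => of1)) hx m,
    fun x hx m => e2 ▸ h.fv_lid co2.op (s2.trans (image_mono fun _ => of2)) hx m⟩

variable (h : Su c n univ a α) (ny : y.2.2 ≠ 0)
include h ny

theorem onto1 (r : n.r1 + 5 * n.k < y.2.1) (r' : y.2.1 ≤ c.Rs - 1) (b : Est.Ab c y) :
    y ∈ ac c a α '' Om (D1 c (Dv n.r1 n.τ univ)) := by
  obtain ⟨k0, -, -, k2⟩ := h.nm.k1 h.e0
  have p := abs_nonneg (uu c.M y - n.ti)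
  have l := h.lb.glu_late h.dk h.id (x := (n.ti + 2 * |uu c.M y - n.ti|, y.2))
    ⟨⟨show n.r1 < y.2.1 by linarith, trivial⟩, ny⟩ (by linarith)
  obtain ⟨x, hx, e, -⟩ := h.hit (t := n.ti + 2 * |uu c.M y - n.ti|) ny b
    (by linarith [h.num.2.1]) (fun q hq => ⟨⟨by linarith [hq.2.1], trivial⟩,
      by linarith [hq.2.2]⟩) (by
      nlinarith [(abs_le.1 l).1, h.nm.e1, le_abs_self (uu c.M y - n.ti)])
  exact ⟨x, hx, e⟩

theorem onto2 (b : Est.Fa c y) : y ∈ ac c a α '' Om (D2 c (Dv n.r1 n.τ univ)) := by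
  obtain ⟨a1, -, -, a4⟩ := h.nm.rad
  obtain ⟨-, -, a5, a6⟩ := h.num
  have e1 := h.nm.e1
  have W : ∀ p, p ∈ Wd (Dv n.r1 n.τ univ) (Ra c) := fun _ =>
    ⟨show n.r1 < Ra c by linarith, trivial⟩
  have B := h.lb.lab_box h.dk
  have p := abs_nonneg (uu c.M y - n.ti)
  have i : ∀ t ≤ n.ti, (lab (Ra c) a (t, y.2)).1 = t := fun t k => by
    rw [lab, h.id (anc (Ra c) (t, y.2)) k]; simp [hz_ap, er, anc]
  have l := B.t_line (t := n.ti) (t' := n.ti + 2 * |uu c.M y - n.ti|) (r := y.2.1) ny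
    fun q _ => W q
  rw [i _ le_rfl, add_sub_cancel_left, abs_of_nonneg (a := 2 * _) (by linarith)] at l
  obtain ⟨x, hx, e, -⟩ := B.hit1 (y := ko (4 * c.M ^ 2) y) (t1 := n.ti - |uu c.M y - n.ti|)
    (t2 := n.ti + 2 * |uu c.M y - n.ti|) ny (by linarith) (fun q _ => W q)
    ((i _ (by linarith)).trans_le (show _ ≤ uu c.M y by linarith [neg_abs_le (uu c.M y - n.ti)]))
    (show uu c.M y ≤ (lab (Ra c) a (_, y.2.1, y.2.2)).1 by
      nlinarith [(abs_le.1 l).1, le_abs_self (uu c.M y - n.ti)])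
  have q := abs_le.1 (h.lb.one x hx)
  have q0 : 0 < α x := by linarith
  have q1 := (abs_le.1 (show |(a (anc (Ra c) x)).2.1 - Ra c| ≤ n.e from
    h.lb.box.r' (anc_mem hx))).2
  obtain ⟨r, hr⟩ : ∃ r, r = Ra c + (y.2.1 - (a (anc (Ra c) x)).2.1) / α x := ⟨_, rfl⟩
  have r1 : Ra c + 1 / 4 < r := by
    rw [hr, add_lt_add_iff_left, lt_div_iff₀ q0]
    linarith [b.1]
  have m : anc r x ∈ Om (Dv n.r1 n.τ univ) := ⟨⟨show n.r1 < r by linarith, trivial⟩, hx.2⟩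
  have e2 : ac c a α (anc r x) = y := by
    have e3 : rad (Ra c) a α (anc r x) = x.2.1 := by
      rw [rad, h.lb.ind', show x.2.1 = y.2.1 by simpa [lab, hz_ap, er, ko] using congrArg (·.2.1) e]
      simp only [anc, hr]
      field_simp
      ring
    rw [ac, Function.comp, glu_far r1.le, far_eq, e3, show anc x.2.1 (anc r x) = x from rfl, e,
      ki_ko]
  exact ⟨_, ⟨⟨⟨m.1, by linarith [h.ab_low m (e2 ▸ ((fa_iff h.nm.ok).1 b).2)]⟩,
    show c.R1 + 5 / 2 < r by linarith⟩, m.2⟩, e2⟩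

end Su

end Vale.Agent.P354CQ
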