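import Vale.Agent.P354CQ.Glu

/-!
The inverse of the differential of the far chart, and the new time.
-/

open scoped ContDiff
open Set Filter Topology Metric
open Function (invFunOn Injective)

noncomputable section

namespace Vale.Agent.P354CQ

open Vale.Agent.P354XG (E6)
open Vale.Agent.P354XO

variable {D : Set (ℝ × ℝ)} {R Rs L e ρ ti l c κ d : ℝ} {w : ℝ → ℝ} {a : E6 → E6} {α : E6 → ℝ}
  {x y : E6}

theorem fd_sc {O : Set E6} (o : IsOpen O) {z : ℂ} (hx : x ∈ O) (e : ∀ y ∈ O, a (sc z y) = sc z (a y))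
    (d1 : DifferentiableAt ℝ a x) (d2 : DifferentiableAt ℝ a (sc z x)) (v : E6) :
    fderiv ℝ a (sc z x) (sc z v) = sc z (fderiv ℝ a x v) := by
  have e1 : a ∘ sc z =ᶠ[𝓝 x] sc z ∘ a := mem_of_superset (o.mem_nhds hx) e
  have := e1.fderiv_eq (𝕜 := ℝ)
  rw [(d2.hasFDerivAt.comp x (sc z).hasFDerivAt).fderiv,
    ((sc z).hasFDerivAt.comp x d1.hasFDerivAt).fderiv] at this
  exact DFunLike.congr_fun this v

/-- The new time along a walk. -/
theorem t_walk (h : Box D a l c e) (k : Walk κ d D) {p q : ℝ × ℝ} (hp : p ∈ D) (hq : q ∈ D)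
    (hd : |p.2 - q.2| ≤ d) {ξ ξ' : ℂ × ℂ} (n : ξ ≠ 0) (n' : ξ' ≠ 0) :
    |(a (p.1, p.2, ξ)).1 - (a (q.1, q.2, ξ')).1 - l * (p.1 - q.1)| ≤ κ * c * ‖p - q‖ + 4 * c := by
  let I : ℝ × ℝ →L[ℝ] E6 := (ContinuousLinearMap.id ℝ ℝ).prodMap (.inl ℝ ℝ (ℂ × ℂ))
  have nI : ‖I‖ ≤ 1 := I.opNorm_le_bound zero_le_one fun p => by
    rw [one_mul]
    exact max_le (norm_fst_le p) (max_le (norm_snd_le p) (norm_zero.trans_le (norm_nonneg _)))
  have k1 := k _ hp _ hq hd (fun p => a (I p + (0, 0, 1, 1)) - dg l (I p + (0, 0, 1, 1))) c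
    fun p hp => by
      have o : I p + (0, 0, 1, 1) ∈ Om D := by simpa [I, Om] using hp
      have f := ((h.df o).hasFDerivAt.sub (dg l).hasFDerivAt).comp p
        (I.hasFDerivAt.add_const (0, 0, 1, 1))
      refine ⟨f.differentiableAt, ?_⟩
      refine (congrArg norm f.fderiv).trans_le ((ContinuousLinearMap.opNorm_comp_le _ _).trans ?_)
      simpa only [mul_one] using mul_le_mul (h.d _ o (by simp [I])) nI (norm_nonneg _) h.c0
  have e2 : ∀ p, I p + (0, 0, 1, 1) = (p.1, p.2, 1, 1) := fun p => by simp [I, Prod.map]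
  simp only [e2] at k1
  have k2 := abs_le.1 ((norm_fst_le _).trans k1)
  have k3 := abs_le.1 (h.t_sphere n hp)
  have k4 := abs_le.1 (h.t_sphere n' hq)
  simp only [Prod.fst_sub, dg_ap] at k2
  exact abs_le.2 ⟨by linarith [k2.1], by linarith [k2.2]⟩

theorem glu_t : (glu R a α x).1 = (1 - chi R x) * (a x).1 + chi R x * (lab R a x).1 := by
  simp [glu, far, lab, er, hz_ap]; ring

theorem glu_early (i : ∀ x : E6, x.1 ≤ ti → a x = x) (h : x.1 ≤ ti) :
    (glu R a α x).1 = x.1 ∧ (glu R a α x).2.2 = x.2.2 := by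
  rw [glu, far, i x h, i (anc R x) h]
  simp [er, anc]

theorem glu_id (i : ∀ x : E6, x.1 ≤ ti → a x = x) (h : x.1 ≤ ti) (k : α x = 1) :
    glu R a α x = x := by
  rw [glu, far_id (i (anc R x) h) k, i x h, sub_self, smul_zero, add_zero]

namespace Lb
variable (h : Lb D R e w a α) (k : Dk D R Rs L)
include h k

theorem solve1 (hx : x ∈ Om (Wd D R)) (n : ‖x.2.2‖ = 1) {u : E6} (r : u.2.1 = 0) :
    ∃ v, fderiv ℝ (far R a α) x v = u ∧ |v.1 - u.1| ≤ 2 * e * ‖u‖ ∧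
      |v.2.1| ≤ 2 * e * (1 + |x.2.1 - R| * w x.1) * ‖u‖ := by
  have e0 := h.box.e0
  have he := h.box.he
  have p := h.pos hx
  obtain ⟨v, hv⟩ := (LinearMap.injective_iff_surjective
    (f := (fderiv ℝ (lab R a) x : E6 →ₗ[ℝ] E6))).1 ((h.lab_dif k).fd x hx) u
  have hv' : hz (fderiv ℝ a (anc R x) (hz v)) + v.2.1 • er = u := by
    rw [← hv, (h.lab_d hx).fderiv]; rfl
  have v0 : v.2.1 = 0 := by simpa [hz_ap, er, r] using congrArg (·.2.1) hv'
  have e1 : hz v = v := by rw [← hz_add v, v0]; simp [hz_ap]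
  have b := h.an_b hx n v
  rw [v0, zero_smul, add_zero] at hv'
  have b1 : ‖u - v‖ ≤ e * ‖v‖ := by
    refine le_trans (le_of_eq ?_) ((norm_hz _).trans b)
    rw [map_sub, hv', e1, e1]
  have b2 : ‖v‖ ≤ 8 / 7 * ‖u‖ := by
    nlinarith [norm_sub_norm_le v u, norm_sub_rev u v, norm_nonneg v]
  have b3 : |(fderiv ℝ a (anc R x) (hz v)).2.1| ≤ e * ‖v‖ := by
    simpa [hz_ap] using (abs_r _).trans b
  have b4 : |fderiv ℝ α x v| ≤ e * w x.1 * ‖v‖ := (fderiv ℝ α x).le_of_opNorm_le (h.dα x hx n) v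
  have w0 : 0 ≤ e * w x.1 := (norm_nonneg _).trans (h.dα x hx n)
  set β := (fderiv ℝ a (anc R x) (hz v)).2.1 + (x.2.1 - R) * fderiv ℝ α x v with hβ
  have b5 : |β| ≤ (e + |x.2.1 - R| * (e * w x.1)) * ‖v‖ := by
    have := abs_add_le (fderiv ℝ a (anc R x) (hz v)).2.1 ((x.2.1 - R) * fderiv ℝ α x v)
    rw [abs_mul] at this
    nlinarith [mul_le_mul_of_nonneg_left b4 (abs_nonneg (x.2.1 - R))]
  refine ⟨v - (β / α x) • er, ?_, ?_, ?_⟩
  · rw [map_sub, map_smul, h.far_er hx, smul_smul, div_mul_cancel₀ _ (by linarith : α x ≠ 0),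
      (h.far_d hx).fderiv, ← hv']
    ext <;> simp [hβ, hz_ap, er, dR_ap, v0]
  · have := (norm_fst_le (u - v)).trans b1
    rw [Prod.fst_sub, Real.norm_eq_abs, abs_sub_comm] at this
    simp only [er, Prod.fst_sub, Prod.smul_fst, smul_zero, sub_zero]
    nlinarith [norm_nonneg u]
  · simp only [er, Prod.snd_sub, Prod.fst_sub, Prod.smul_snd, Prod.smul_fst, v0, smul_eq_mul,
      mul_one, zero_sub, abs_neg]
    rw [abs_div, abs_of_pos (by linarith : 0 < α x), div_le_iff₀ (by linarith)]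
    have q : 0 ≤ e + |x.2.1 - R| * (e * w x.1) := by positivity
    nlinarith [mul_le_mul_of_nonneg_left b2 q, mul_nonneg q (norm_nonneg u),
      mul_le_mul_of_nonneg_left p (mul_nonneg q (norm_nonneg u))]

/-- The vector which is mapped to a given horizontal vector. -/
theorem solve (hx : x ∈ Om (Wd D R)) {u : E6} (r : u.2.1 = 0) :
    ∃ v, fderiv ℝ (far R a α) x v = sc (nz x) u ∧ |v.1 - u.1| ≤ 2 * e * ‖u‖ ∧
      |v.2.1| ≤ 2 * e * (1 + |x.2.1 - R| * w x.1) * ‖u‖ := by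
  have hz := nz_ne hx.2
  have hu := om_sc hx (inv_ne_zero hz)
  obtain ⟨v, h1, h2⟩ := h.solve1 k hu (norm_unit hx.2) r
  refine ⟨sc (nz x) v, ?_, h2⟩
  have := fd_sc (a := far R a α) (om_open k.wop) hu (fun y hy => h.far_eqv hy hz)
    ((h.far_dif k).diff hu).differentiableAt
    (by rw [sc_inv hz]; exact ((h.far_dif k).diff hx).differentiableAt) v
  rwa [sc_inv hz, h1] at this

/-- The new time after the initial time. -/
theorem glu_late (i : ∀ x : E6, x.1 ≤ ti → a x = x) (hx : x ∈ Om D) (t : ti ≤ x.1) :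
    |(glu R a α x).1 - x.1| ≤ e * (x.1 - ti) := by
  have s : ∀ r, (x.1, r) ∈ D → ∀ p ∈ uIcc ti x.1 ×ˢ {r}, p ∈ D := fun r hr p hp => by
    rw [uIcc_of_le t] at hp
    exact (show p = (p.1, r) from Prod.ext rfl hp.2) ▸ k.down _ hr _ hp.1.2
  have h1 : x.2.1 < R + 1 / 2 → |(a x).1 - x.1| ≤ e * (x.1 - ti) := fun r => by
    have := h.box.t_line (t := ti) (t' := x.1) (r := x.2.1) hx.2
      fun p hp => ⟨s _ hx.1 p hp, hp.2.trans_lt r⟩
    rw [i (ti, x.2.1, x.2.2) le_rfl, abs_of_nonneg (sub_nonneg.2 t)] at this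
    simpa using this
  have h2 : R ≤ x.2.1 → |(lab R a x).1 - x.1| ≤ e * (x.1 - ti) := fun r => by
    have := h.box.t_line (t := ti) (t' := x.1) (r := R) hx.2
      fun p hp => ⟨s _ (k.mem hx r).1 p hp, hp.2.trans_lt (by linarith)⟩
    rw [i (ti, R, x.2.2) le_rfl, abs_of_nonneg (sub_nonneg.2 t)] at this
    simpa [lab, hz_ap, er, anc] using this
  rcases three R x with r | r | r
  · rw [glu_near r.le]; exact h1 (by linarith)
  · rw [glu_far r.le]; simpa [far, lab, hz_ap, er] using h2 (by linarith)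
  · obtain ⟨c0, c1⟩ := chi_mem R x
    have h3 := abs_le.1 (h1 (by linarith [r.2]))
    have h4 := abs_le.1 (h2 r.1)
    rw [glu_t]
    exact abs_le.2 ⟨by nlinarith, by nlinarith⟩

theorem glu_ge (i : ∀ x : E6, x.1 ≤ ti → a x = x) (hx : x ∈ Om D) :
    min x.1 ti ≤ (glu R a α x).1 := by
  rcases le_total x.1 ti with t | t
  · rw [(glu_early i t).1]; exact min_le_left _ _
  · have := (abs_le.1 (h.glu_late k i hx t)).1
    rw [min_eq_right t]
    nlinarith [h.box.he]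

theorem glu_abs (i : ∀ x : E6, x.1 ≤ ti → a x = x) (hx : x ∈ Om D) :
    |(glu R a α x).1 - x.1| ≤ e * (|x.1| + |ti|) := by
  have e0 := h.box.e0
  rcases le_total x.1 ti with t | t
  · rw [(glu_early i t).1, sub_self, abs_zero]; positivity
  · exact (h.glu_late k i hx t).trans (mul_le_mul_of_nonneg_left
      (by linarith [le_abs_self x.1, neg_abs_le ti]) e0)

theorem glu_xi_le (hx : x ∈ Om D) : 7 / 8 * ‖x.2.2‖ ≤ ‖(glu R a α x).2.2‖ ∧
    ‖(glu R a α x).2.2‖ ≤ 9 / 8 * ‖x.2.2‖ := by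
  have hz := nz_ne hx.2
  have hu := om_sc hx (inv_ne_zero hz)
  have h1 := abs_le.1 ((abs_norm_sub_norm_le _ _).trans (h.glu_xi k hu (norm_unit hx.2)))
  have h2 := h.glu_eqv k hu hz
  rw [sc_inv hz] at h2
  rw [h2, sc_ap, norm_smul, norm_nz]
  rw [norm_unit hx.2] at h1
  constructor <;> nlinarith [h.box.he, norm_nonneg x.2.2]

end Lb

end Vale.Agent.P354CQ
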